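/-
helper77 — key lemma (S)/(B3) for row 82 (S0109), algebraic layer.

`key_sum`: for finitely many "cells" with masses `g0 i, g1 i`, first moments `m0 i, m1 i`,
second moments `q0 i, q1 i` (bounded as for subsets of a ball of radius `R`) and numbers `H i ≥ 0`
satisfying the two one-parameter families of Prékopa–Leindler product inequalities and
`∑ (64 R² (g0+g1) - (q0+q1) - 2 H) ≥ 0`, one has
`∑ ‖m1 - m0‖² / (g0 + g1) ≤ 600 R² ∑ (g1 - g0)² / (g0 + g1)`.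
Pure real algebra (no measure theory); the measure-theoretic instance is in `KeyS.lean`.
-/
import Mathlib

set_option autoImplicit false
open scoped InnerProductSpace

namespace Crest.Agent.Helper77

/-- Square-root-free AM–GM defect bound: if `a b H ≥ 0`, `a * b ≤ H ^ 2` and `a + b > 0`,
then `a + b - 2 * H ≤ (a - b) ^ 2 / (a + b)`. -/
theorem amgm_defect {a b H : ℝ} (ha : 0 ≤ a) (hb : 0 ≤ b) (hH : 0 ≤ H)
    (hab : a * b ≤ H ^ 2) (hpos : 0 < a + b) :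
    a + b - 2 * H ≤ (a - b) ^ 2 / (a + b) := by
  rw [le_div_iff₀ hpos]
  have h1 : 2 * (a * b) ≤ H * (a + b) := by
    by_contra hcon
    rw [not_le] at hcon
    have h2 : (H * (a + b)) ^ 2 < (2 * (a * b)) ^ 2 :=
      pow_lt_pow_left₀ hcon (by positivity) two_ne_zero
    nlinarith [mul_nonneg (sub_nonneg.2 hab) (sq_nonneg (a + b)),
      mul_nonneg (mul_nonneg ha hb) (sq_nonneg (a - b))]
  nlinarith

theorem neg_add_sq_le (x y : ℝ) : (-x + y) ^ 2 ≤ 2 * x ^ 2 + 2 * y ^ 2 := by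
  nlinarith [sq_nonneg (x + y)]

/-- Choice of the tilt parameter. -/
theorem exists_tilt {q0 q1 : ℝ} (hq0 : 0 ≤ q0) (hq1 : 0 ≤ q1) :
    ∃ τ : ℝ, |τ| ≤ 1 / 8 ∧ 8 * τ * (q0 + q1) = q1 - q0 := by
  rcases (add_nonneg hq0 hq1).eq_or_lt with hQ | hQ
  · refine ⟨0, by norm_num, ?_⟩
    have h0 : q0 = 0 := by linarith
    have h1 : q1 = 0 := by linarith
    rw [h0, h1]; ring
  · refine ⟨(q1 - q0) / (8 * (q0 + q1)), ?_, by field_simp⟩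
    rw [abs_div, abs_of_pos (by positivity : (0:ℝ) < 8 * (q0 + q1)), div_le_iff₀ (by positivity)]
    have : |q1 - q0| ≤ q0 + q1 := by rw [abs_le]; constructor <;> linarith
    linarith

/-- Per-cell second-moment estimate, multiplied-out form (pure algebra). -/
theorem cellQ_aux {R g0 g1 q0 q1 H : ℝ} (hR : 0 < R) (hg0 : 0 ≤ g0) (hg1 : 0 ≤ g1)
    (hG : 0 < g0 + g1)
    (hq0 : 0 ≤ q0) (hq1 : 0 ≤ q1) (hq0R : q0 ≤ R ^ 2 * g0) (hq1R : q1 ≤ R ^ 2 * g1)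
    (hH : 0 ≤ H)
    (hPL : ∀ τ : ℝ, |τ| ≤ 1 / 8 →
      (64 * R ^ 2 * g0 - (1 + τ) * q0) * (64 * R ^ 2 * g1 - (1 - τ + 4 * τ ^ 2) * q1) ≤ H ^ 2) :
    (15 / 8) * (q1 - q0) ^ 2 ≤ 8192 * R ^ 4 * (g1 - g0) ^ 2
      - 62 * R ^ 2 * (g0 + g1) * (64 * R ^ 2 * (g0 + g1) - (q0 + q1) - 2 * H) := by
  have hR2 : 0 < R ^ 2 := by positivity
  obtain ⟨τ, hτabs, hτQ⟩ := exists_tilt hq0 hq1
  have hQ0 : 0 ≤ q0 + q1 := add_nonneg hq0 hq1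
  have hQR : q0 + q1 ≤ R ^ 2 * (g0 + g1) := by linarith
  have hτ1 : -(1/8) ≤ τ := (abs_le.1 hτabs).1
  have hτ2 : τ ≤ 1/8 := (abs_le.1 hτabs).2
  have hτsq : τ ^ 2 ≤ 1 / 64 := by
    have h1 : τ ^ 2 ≤ (1 / 8 : ℝ) ^ 2 := sq_le_sq' (by linarith) hτ2
    norm_num at h1
    linarith
  have hτsq0 : 0 ≤ τ ^ 2 := sq_nonneg τ
  have hpl := hPL τ hτabs
  -- lower bounds
  have hA0lb : 62 * R ^ 2 * g0 ≤ 64 * R ^ 2 * g0 - (1 + τ) * q0 := by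
    have h1 : (1 + τ) * q0 ≤ (9/8) * q0 := mul_le_mul_of_nonneg_right (by linarith) hq0
    linarith
  have hA1lb : 62 * R ^ 2 * g1 ≤ 64 * R ^ 2 * g1 - (1 - τ + 4 * τ ^ 2) * q1 := by
    have h1 : (1 - τ + 4 * τ ^ 2) * q1 ≤ (19/16) * q1 :=
      mul_le_mul_of_nonneg_right (by linarith) hq1
    linarith
  have hA0n : 0 ≤ 64 * R ^ 2 * g0 - (1 + τ) * q0 := le_trans (by positivity) hA0lb
  have hA1n : 0 ≤ 64 * R ^ 2 * g1 - (1 - τ + 4 * τ ^ 2) * q1 := le_trans (by positivity) hA1lb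
  have hsumlb : 62 * R ^ 2 * (g0 + g1) ≤ (64 * R ^ 2 * g0 - (1 + τ) * q0)
      + (64 * R ^ 2 * g1 - (1 - τ + 4 * τ ^ 2) * q1) := by linarith
  have h62 : 0 < 62 * R ^ 2 * (g0 + g1) := by positivity
  have hsumpos : 0 < (64 * R ^ 2 * g0 - (1 + τ) * q0)
      + (64 * R ^ 2 * g1 - (1 - τ + 4 * τ ^ 2) * q1) := lt_of_lt_of_le h62 hsumlb
  have hdef := amgm_defect hA0n hA1n hH hpl hsumpos
  -- gain
  have hgain : (64 * R ^ 2 * (g0 + g1) - (q0 + q1)) + 4 * τ ^ 2 * (q0 + q1)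
      ≤ (64 * R ^ 2 * g0 - (1 + τ) * q0) + (64 * R ^ 2 * g1 - (1 - τ + 4 * τ ^ 2) * q1) := by
    have h1 : τ * (q1 - q0) = 8 * τ ^ 2 * (q0 + q1) := by rw [← hτQ]; ring
    have h2 : 0 ≤ τ ^ 2 * q0 := mul_nonneg hτsq0 hq0
    linarith
  have hdq : (q1 - q0) ^ 2 ≤ 16 * (R ^ 2 * (g0 + g1)) * (4 * τ ^ 2 * (q0 + q1)) := by
    have h1 : (q1 - q0) ^ 2 = 64 * (τ ^ 2 * (q0 + q1)) * (q0 + q1) := by rw [← hτQ]; ring
    rw [h1]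
    have h2 : 0 ≤ τ ^ 2 * (q0 + q1) := mul_nonneg hτsq0 hQ0
    linarith [mul_le_mul_of_nonneg_left hQR h2]
  -- difference
  have hdiff : (64 * R ^ 2 * g0 - (1 + τ) * q0) - (64 * R ^ 2 * g1 - (1 - τ + 4 * τ ^ 2) * q1)
      = -(64 * R ^ 2 * (g1 - g0)) + (7 * τ * (q0 + q1) + 4 * τ ^ 2 * q1) := by
    linear_combination hτQ.symm
  have he : (7 * τ * (q0 + q1) + 4 * τ ^ 2 * q1) ^ 2 ≤ (q1 - q0) ^ 2 := by
    rw [← hτQ]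
    have hq1Q : q1 ≤ q0 + q1 := by linarith
    have h56 : 56 * τ * (q0 + q1) * q1 ≤ 7 * (q0 + q1) ^ 2 := by
      have h1 : τ * ((q0 + q1) * q1) ≤ (1/8) * ((q0 + q1) * q1) :=
        mul_le_mul_of_nonneg_right hτ2 (mul_nonneg hQ0 hq1)
      have h2 : (q0 + q1) * q1 ≤ (q0 + q1) * (q0 + q1) := mul_le_mul_of_nonneg_left hq1Q hQ0
      linarith
    have h16 : 16 * τ ^ 2 * q1 ^ 2 ≤ (q0 + q1) ^ 2 / 4 := by
      have h1 : τ ^ 2 * q1 ^ 2 ≤ (1/64) * q1 ^ 2 := mul_le_mul_of_nonneg_right hτsq (sq_nonneg q1)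
      have h2 : q1 ^ 2 ≤ (q0 + q1) ^ 2 := pow_le_pow_left₀ hq1 hq1Q 2
      linarith
    have h3 : (7 * τ * (q0 + q1) + 4 * τ ^ 2 * q1) ^ 2 = (8 * τ * (q0 + q1)) ^ 2
        - τ ^ 2 * (15 * (q0 + q1) ^ 2 - (56 * τ * (q0 + q1) * q1 + 16 * τ ^ 2 * q1 ^ 2)) := by ring
    rw [h3]
    have h4 : 0 ≤ τ ^ 2 * (15 * (q0 + q1) ^ 2 - (56 * τ * (q0 + q1) * q1 + 16 * τ ^ 2 * q1 ^ 2)) :=
      mul_nonneg hτsq0 (by linarith [sq_nonneg (q0 + q1)])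
    linarith
  have hnum : ((64 * R ^ 2 * g0 - (1 + τ) * q0) - (64 * R ^ 2 * g1 - (1 - τ + 4 * τ ^ 2) * q1)) ^ 2
      ≤ 8192 * R ^ 4 * (g1 - g0) ^ 2 + 2 * (q1 - q0) ^ 2 := by
    rw [hdiff]
    have h1 := neg_add_sq_le (64 * R ^ 2 * (g1 - g0)) (7 * τ * (q0 + q1) + 4 * τ ^ 2 * q1)
    have h2 : 2 * (64 * R ^ 2 * (g1 - g0)) ^ 2 = 8192 * R ^ 4 * (g1 - g0) ^ 2 := by ring
    linarith
  have hfrac : ((64 * R ^ 2 * g0 - (1 + τ) * q0)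
        - (64 * R ^ 2 * g1 - (1 - τ + 4 * τ ^ 2) * q1)) ^ 2
      / ((64 * R ^ 2 * g0 - (1 + τ) * q0) + (64 * R ^ 2 * g1 - (1 - τ + 4 * τ ^ 2) * q1))
      ≤ (8192 * R ^ 4 * (g1 - g0) ^ 2 + 2 * (q1 - q0) ^ 2) / (62 * R ^ 2 * (g0 + g1)) :=
    div_le_div₀ (by positivity) hnum h62 hsumlb
  have hmain := hdef.trans hfrac
  rw [le_div_iff₀ h62] at hmain
  -- combine
  have h5 : (64 * R ^ 2 * (g0 + g1) - (q0 + q1) + 4 * τ ^ 2 * (q0 + q1) - 2 * H)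
      * (62 * R ^ 2 * (g0 + g1)) ≤ 8192 * R ^ 4 * (g1 - g0) ^ 2 + 2 * (q1 - q0) ^ 2 := by
    refine le_trans (mul_le_mul_of_nonneg_right ?_ h62.le) hmain
    linarith
  have h5' : 62 * R ^ 2 * (g0 + g1) * (64 * R ^ 2 * (g0 + g1) - (q0 + q1) - 2 * H)
      + 248 * (R ^ 2 * (g0 + g1) * (τ ^ 2 * (q0 + q1)))
      ≤ 8192 * R ^ 4 * (g1 - g0) ^ 2 + 2 * (q1 - q0) ^ 2 := by
    have h6 : (64 * R ^ 2 * (g0 + g1) - (q0 + q1) + 4 * τ ^ 2 * (q0 + q1) - 2 * H)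
        * (62 * R ^ 2 * (g0 + g1))
        = 62 * R ^ 2 * (g0 + g1) * (64 * R ^ 2 * (g0 + g1) - (q0 + q1) - 2 * H)
          + 248 * (R ^ 2 * (g0 + g1) * (τ ^ 2 * (q0 + q1))) := by ring
    rw [h6] at h5
    exact h5
  have hdq' : (q1 - q0) ^ 2 ≤ 64 * (R ^ 2 * (g0 + g1) * (τ ^ 2 * (q0 + q1))) := by
    have h7 : 16 * (R ^ 2 * (g0 + g1)) * (4 * τ ^ 2 * (q0 + q1))
        = 64 * (R ^ 2 * (g0 + g1) * (τ ^ 2 * (q0 + q1))) := by ring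
    rw [h7] at hdq
    exact hdq
  linarith

/-- Per-cell second-moment estimate (pure algebra), division form; valid also for null cells. -/
theorem cellQ {R g0 g1 q0 q1 H : ℝ} (hR : 0 < R) (hg0 : 0 ≤ g0) (hg1 : 0 ≤ g1)
    (hq0 : 0 ≤ q0) (hq1 : 0 ≤ q1) (hq0R : q0 ≤ R ^ 2 * g0) (hq1R : q1 ≤ R ^ 2 * g1)
    (hH : 0 ≤ H)
    (hPL : ∀ τ : ℝ, |τ| ≤ 1 / 8 →
      (64 * R ^ 2 * g0 - (1 + τ) * q0) * (64 * R ^ 2 * g1 - (1 - τ + 4 * τ ^ 2) * q1) ≤ H ^ 2) :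
    (15 / 8) * ((q1 - q0) ^ 2 / (g0 + g1)) ≤ 8192 * R ^ 4 * ((g1 - g0) ^ 2 / (g0 + g1))
      - 62 * R ^ 2 * (64 * R ^ 2 * (g0 + g1) - (q0 + q1) - 2 * H) := by
  have hR2 : 0 < R ^ 2 := by positivity
  rcases (add_nonneg hg0 hg1).eq_or_lt with hG | hG
  · have h0 : g0 = 0 := by linarith
    have h1 : g1 = 0 := by linarith
    have hq0' : q0 = 0 := by rw [h0, mul_zero] at hq0R; linarith
    have hq1' : q1 = 0 := by rw [h1, mul_zero] at hq1R; linarith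
    rw [h0, h1, hq0', hq1']
    simp only [sub_self, add_zero, div_zero, mul_zero, zero_sub]
    have : 0 ≤ R ^ 2 * H := mul_nonneg hR2.le hH
    linarith
  · have haux := cellQ_aux hR hg0 hg1 hG hq0 hq1 hq0R hq1R hH hPL
    have e1 : (15 / 8) * ((q1 - q0) ^ 2 / (g0 + g1))
        = ((15 / 8) * (q1 - q0) ^ 2) / (g0 + g1) := by ring
    have e2 : 8192 * R ^ 4 * ((g1 - g0) ^ 2 / (g0 + g1))
        - 62 * R ^ 2 * (64 * R ^ 2 * (g0 + g1) - (q0 + q1) - 2 * H)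
        = (8192 * R ^ 4 * (g1 - g0) ^ 2
          - 62 * R ^ 2 * (g0 + g1) * (64 * R ^ 2 * (g0 + g1) - (q0 + q1) - 2 * H)) / (g0 + g1) := by
      field_simp
    rw [e1, e2]
    exact div_le_div_of_nonneg_right haux hG.le

theorem three_sq_le (a b c : ℝ) : (a + b + c) ^ 2 ≤ 3 * (a ^ 2 + b ^ 2 + c ^ 2) := by
  nlinarith [sq_nonneg (a - b), sq_nonneg (a - c), sq_nonneg (b - c)]

variable {E : Type*} [NormedAddCommGroup E] [InnerProductSpace ℝ E]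

/-- Per-cell first-moment estimate, multiplied-out form (pure algebra). -/
theorem cellM_aux {R g0 g1 q0 q1 H : ℝ} {m0 m1 : E} (hR : 0 < R) (hg0 : 0 ≤ g0) (hg1 : 0 ≤ g1)
    (hG : 0 < g0 + g1)
    (hq0 : 0 ≤ q0) (hq1 : 0 ≤ q1) (hq0R : q0 ≤ R ^ 2 * g0) (hq1R : q1 ≤ R ^ 2 * g1)
    (hm0 : ‖m0‖ ≤ R * g0) (hm1 : ‖m1‖ ≤ R * g1) (hH : 0 ≤ H)
    (hPL : ∀ v : E, ‖v‖ ≤ R / 2 →
      (64 * R ^ 2 * g0 - (q0 + 2 * ⟪v, m0⟫_ℝ + ‖v‖ ^ 2 * g0))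
        * (64 * R ^ 2 * g1 - (q1 - 2 * ⟪v, m1⟫_ℝ + ‖v‖ ^ 2 * g1)) ≤ H ^ 2) :
    (171 / 4) * R ^ 2 * ‖m1 - m0‖ ^ 2 ≤ 12288 * R ^ 4 * (g1 - g0) ^ 2 + 3 * (q1 - q0) ^ 2
      - 61 * R ^ 2 * (g0 + g1) * (64 * R ^ 2 * (g0 + g1) - (q0 + q1) - 2 * H) := by
  have hR2 : 0 < R ^ 2 := by positivity
  set t : ℝ := 1 / (2 * (g0 + g1)) with ht
  have htG : t * (g0 + g1) = 1 / 2 := by rw [ht]; field_simp
  have ht0 : 0 ≤ t := by rw [ht]; positivity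
  set μ : ℝ := ‖m1 - m0‖ with hμ
  have hμ0 : 0 ≤ μ := norm_nonneg _
  have hμR : μ ≤ R * (g0 + g1) := by
    have := norm_sub_le m1 m0
    linarith
  set v : E := t • (m1 - m0) with hv
  have hvn : ‖v‖ = t * μ := by rw [hv, norm_smul, Real.norm_of_nonneg ht0]
  have hvR : ‖v‖ ≤ R / 2 := by
    rw [hvn]
    have h1 : t * μ ≤ t * (R * (g0 + g1)) := mul_le_mul_of_nonneg_left hμR ht0
    have h2 : t * (R * (g0 + g1)) = R * (t * (g0 + g1)) := by ring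
    rw [h2, htG] at h1
    linarith
  have hpl := hPL v hvR
  set x0 : ℝ := ⟪v, m0⟫_ℝ with hx0
  set x1 : ℝ := ⟪v, m1⟫_ℝ with hx1
  set n : ℝ := ‖v‖ ^ 2 with hn
  have hn0 : 0 ≤ n := sq_nonneg _
  have hnR : n ≤ R ^ 2 / 4 := by
    have h1 : ‖v‖ ^ 2 ≤ (R / 2) ^ 2 := pow_le_pow_left₀ (norm_nonneg _) hvR 2
    have h2 : (R / 2) ^ 2 = R ^ 2 / 4 := by ring
    rw [hn]; linarith
  have hx0abs : |x0| ≤ (R / 2) * (R * g0) := by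
    calc |x0| ≤ ‖v‖ * ‖m0‖ := abs_real_inner_le_norm v m0
      _ ≤ (R / 2) * (R * g0) := mul_le_mul hvR hm0 (norm_nonneg _) (by positivity)
  have hx1abs : |x1| ≤ (R / 2) * (R * g1) := by
    calc |x1| ≤ ‖v‖ * ‖m1‖ := abs_real_inner_le_norm v m1
      _ ≤ (R / 2) * (R * g1) := mul_le_mul hvR hm1 (norm_nonneg _) (by positivity)
  have hx10 : x1 - x0 = t * μ ^ 2 := by
    rw [hx1, hx0, ← inner_sub_right, hv, real_inner_smul_left, real_inner_self_eq_norm_sq]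
  have hnt : n * (g0 + g1) = t * μ ^ 2 / 2 := by
    rw [hn, hvn]
    have : (t * μ) ^ 2 * (g0 + g1) = t * μ ^ 2 * (t * (g0 + g1)) := by ring
    rw [this, htG]; ring
  -- lower bounds
  have hA0lb : 61 * R ^ 2 * g0 ≤ 64 * R ^ 2 * g0 - (q0 + 2 * x0 + n * g0) := by
    have h1 : x0 ≤ (R / 2) * (R * g0) := (le_abs_self x0).trans hx0abs
    have h2 : n * g0 ≤ R ^ 2 / 4 * g0 := mul_le_mul_of_nonneg_right hnR hg0
    have h3 : 0 ≤ R ^ 2 * g0 := mul_nonneg hR2.le hg0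
    nlinarith
  have hA1lb : 61 * R ^ 2 * g1 ≤ 64 * R ^ 2 * g1 - (q1 - 2 * x1 + n * g1) := by
    have h1 : -x1 ≤ (R / 2) * (R * g1) := (neg_le_abs x1).trans hx1abs
    have h2 : n * g1 ≤ R ^ 2 / 4 * g1 := mul_le_mul_of_nonneg_right hnR hg1
    have h3 : 0 ≤ R ^ 2 * g1 := mul_nonneg hR2.le hg1
    nlinarith
  have hA0n : 0 ≤ 64 * R ^ 2 * g0 - (q0 + 2 * x0 + n * g0) := le_trans (by positivity) hA0lb
  have hA1n : 0 ≤ 64 * R ^ 2 * g1 - (q1 - 2 * x1 + n * g1) := le_trans (by positivity) hA1lb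
  have hsumlb : 61 * R ^ 2 * (g0 + g1) ≤ (64 * R ^ 2 * g0 - (q0 + 2 * x0 + n * g0))
      + (64 * R ^ 2 * g1 - (q1 - 2 * x1 + n * g1)) := by linarith
  have h61 : 0 < 61 * R ^ 2 * (g0 + g1) := by positivity
  have hsumpos : 0 < (64 * R ^ 2 * g0 - (q0 + 2 * x0 + n * g0))
      + (64 * R ^ 2 * g1 - (q1 - 2 * x1 + n * g1)) := lt_of_lt_of_le h61 hsumlb
  have hdef := amgm_defect hA0n hA1n hH hpl hsumpos
  -- sum
  have hsum : (64 * R ^ 2 * g0 - (q0 + 2 * x0 + n * g0))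
      + (64 * R ^ 2 * g1 - (q1 - 2 * x1 + n * g1))
      = (64 * R ^ 2 * (g0 + g1) - (q0 + q1)) + (3 / 2) * (t * μ ^ 2) := by
    linear_combination 2 * hx10 - hnt
  -- difference
  have hxs : |x0 + x1| ≤ R * μ / 2 := by
    have h1 : |x0 + x1| ≤ ‖v‖ * ‖m0 + m1‖ := by
      rw [hx0, hx1, ← inner_add_right]
      exact abs_real_inner_le_norm v (m0 + m1)
    have h2 : ‖m0 + m1‖ ≤ R * (g0 + g1) := by
      have := norm_add_le m0 m1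
      linarith
    have h3 : ‖v‖ * ‖m0 + m1‖ ≤ (t * μ) * (R * (g0 + g1)) := by
      rw [hvn]
      exact mul_le_mul_of_nonneg_left h2 (mul_nonneg ht0 hμ0)
    have h4 : (t * μ) * (R * (g0 + g1)) = R * μ * (t * (g0 + g1)) := by ring
    rw [h4, htG] at h3
    linarith
  have hdiff : (64 * R ^ 2 * g0 - (q0 + 2 * x0 + n * g0))
      - (64 * R ^ 2 * g1 - (q1 - 2 * x1 + n * g1))
      = (-((64 * R ^ 2 - n) * (g1 - g0))) + (q1 - q0) + (-(2 * (x0 + x1))) := by ring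
  have hnum : ((64 * R ^ 2 * g0 - (q0 + 2 * x0 + n * g0))
      - (64 * R ^ 2 * g1 - (q1 - 2 * x1 + n * g1))) ^ 2
      ≤ 12288 * R ^ 4 * (g1 - g0) ^ 2 + 3 * (q1 - q0) ^ 2 + 3 * (R ^ 2 * μ ^ 2) := by
    rw [hdiff]
    have h1 := three_sq_le (-((64 * R ^ 2 - n) * (g1 - g0))) (q1 - q0) (-(2 * (x0 + x1)))
    have h2 : (-((64 * R ^ 2 - n) * (g1 - g0))) ^ 2 ≤ 4096 * R ^ 4 * (g1 - g0) ^ 2 := by
      have h3 : (64 * R ^ 2 - n) ^ 2 ≤ (64 * R ^ 2) ^ 2 :=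
        pow_le_pow_left₀ (by linarith) (by linarith) 2
      have h4 : (-((64 * R ^ 2 - n) * (g1 - g0))) ^ 2 = (64 * R ^ 2 - n) ^ 2 * (g1 - g0) ^ 2 := by
        ring
      have h5 : (64 * R ^ 2) ^ 2 * (g1 - g0) ^ 2 = 4096 * R ^ 4 * (g1 - g0) ^ 2 := by ring
      rw [h4, ← h5]
      exact mul_le_mul_of_nonneg_right h3 (sq_nonneg _)
    have h6 : (-(2 * (x0 + x1))) ^ 2 ≤ R ^ 2 * μ ^ 2 := by
      have h7 : (x0 + x1) ^ 2 ≤ (R * μ / 2) ^ 2 := sq_le_sq' (by linarith [neg_abs_le (x0 + x1)])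
        ((le_abs_self _).trans hxs)
      have h8 : (-(2 * (x0 + x1))) ^ 2 = 4 * (x0 + x1) ^ 2 := by ring
      have h9 : (R * μ / 2) ^ 2 = R ^ 2 * μ ^ 2 / 4 := by ring
      rw [h8]; linarith
    linarith
  have hfrac : ((64 * R ^ 2 * g0 - (q0 + 2 * x0 + n * g0))
      - (64 * R ^ 2 * g1 - (q1 - 2 * x1 + n * g1))) ^ 2
      / ((64 * R ^ 2 * g0 - (q0 + 2 * x0 + n * g0)) + (64 * R ^ 2 * g1 - (q1 - 2 * x1 + n * g1)))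
      ≤ (12288 * R ^ 4 * (g1 - g0) ^ 2 + 3 * (q1 - q0) ^ 2 + 3 * (R ^ 2 * μ ^ 2))
        / (61 * R ^ 2 * (g0 + g1)) :=
    div_le_div₀ (by positivity) hnum h61 hsumlb
  have hmain := hdef.trans hfrac
  rw [le_div_iff₀ h61, hsum] at hmain
  have h10 : (64 * R ^ 2 * (g0 + g1) - (q0 + q1) + 3 / 2 * (t * μ ^ 2) - 2 * H)
      * (61 * R ^ 2 * (g0 + g1))
      = 61 * R ^ 2 * (g0 + g1) * (64 * R ^ 2 * (g0 + g1) - (q0 + q1) - 2 * H)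
        + (183 / 2) * (R ^ 2 * μ ^ 2) * (t * (g0 + g1)) := by ring
  rw [h10, htG] at hmain
  linarith

/-- Per-cell first-moment estimate (pure algebra), division form; valid also for null cells. -/
theorem cellM {R g0 g1 q0 q1 H : ℝ} {m0 m1 : E} (hR : 0 < R) (hg0 : 0 ≤ g0) (hg1 : 0 ≤ g1)
    (hq0 : 0 ≤ q0) (hq1 : 0 ≤ q1) (hq0R : q0 ≤ R ^ 2 * g0) (hq1R : q1 ≤ R ^ 2 * g1)
    (hm0 : ‖m0‖ ≤ R * g0) (hm1 : ‖m1‖ ≤ R * g1) (hH : 0 ≤ H)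
    (hPL : ∀ v : E, ‖v‖ ≤ R / 2 →
      (64 * R ^ 2 * g0 - (q0 + 2 * ⟪v, m0⟫_ℝ + ‖v‖ ^ 2 * g0))
        * (64 * R ^ 2 * g1 - (q1 - 2 * ⟪v, m1⟫_ℝ + ‖v‖ ^ 2 * g1)) ≤ H ^ 2) :
    (171 / 4) * R ^ 2 * (‖m1 - m0‖ ^ 2 / (g0 + g1))
      ≤ 12288 * R ^ 4 * ((g1 - g0) ^ 2 / (g0 + g1)) + 3 * ((q1 - q0) ^ 2 / (g0 + g1))
      - 61 * R ^ 2 * (64 * R ^ 2 * (g0 + g1) - (q0 + q1) - 2 * H) := by
  have hR2 : 0 < R ^ 2 := by positivity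
  rcases (add_nonneg hg0 hg1).eq_or_lt with hG | hG
  · have h0 : g0 = 0 := by linarith
    have h1 : g1 = 0 := by linarith
    have hq0' : q0 = 0 := by rw [h0, mul_zero] at hq0R; linarith
    have hq1' : q1 = 0 := by rw [h1, mul_zero] at hq1R; linarith
    rw [h0, h1, hq0', hq1']
    simp only [sub_self, add_zero, div_zero, mul_zero, zero_sub]
    have : 0 ≤ R ^ 2 * H := mul_nonneg hR2.le hH
    linarith
  · have haux := cellM_aux hR hg0 hg1 hG hq0 hq1 hq0R hq1R hm0 hm1 hH hPL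
    have e1 : (171 / 4) * R ^ 2 * (‖m1 - m0‖ ^ 2 / (g0 + g1))
        = ((171 / 4) * R ^ 2 * ‖m1 - m0‖ ^ 2) / (g0 + g1) := by ring
    have e2 : 12288 * R ^ 4 * ((g1 - g0) ^ 2 / (g0 + g1)) + 3 * ((q1 - q0) ^ 2 / (g0 + g1))
        - 61 * R ^ 2 * (64 * R ^ 2 * (g0 + g1) - (q0 + q1) - 2 * H)
        = (12288 * R ^ 4 * (g1 - g0) ^ 2 + 3 * (q1 - q0) ^ 2
          - 61 * R ^ 2 * (g0 + g1) * (64 * R ^ 2 * (g0 + g1) - (q0 + q1) - 2 * H)) / (g0 + g1) := by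
      field_simp
    rw [e1, e2]
    exact div_le_div_of_nonneg_right haux hG.le

/-- **Key summation lemma (pure algebra).** Cells indexed by a finite type, each satisfying the
two Prékopa–Leindler families, with nonnegative total defect: the first moments are controlled
by the masses. -/
theorem key_sum {ι : Type*} [Fintype ι] {R : ℝ} (hR : 0 < R) (g0 g1 q0 q1 H : ι → ℝ)
    (m0 m1 : ι → E)
    (hg0 : ∀ i, 0 ≤ g0 i) (hg1 : ∀ i, 0 ≤ g1 i) (hq0 : ∀ i, 0 ≤ q0 i) (hq1 : ∀ i, 0 ≤ q1 i)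
    (hq0R : ∀ i, q0 i ≤ R ^ 2 * g0 i) (hq1R : ∀ i, q1 i ≤ R ^ 2 * g1 i)
    (hm0 : ∀ i, ‖m0 i‖ ≤ R * g0 i) (hm1 : ∀ i, ‖m1 i‖ ≤ R * g1 i) (hH : ∀ i, 0 ≤ H i)
    (hPLq : ∀ i, ∀ τ : ℝ, |τ| ≤ 1 / 8 →
      (64 * R ^ 2 * g0 i - (1 + τ) * q0 i) * (64 * R ^ 2 * g1 i - (1 - τ + 4 * τ ^ 2) * q1 i)
        ≤ H i ^ 2)
    (hPLm : ∀ i, ∀ v : E, ‖v‖ ≤ R / 2 →
      (64 * R ^ 2 * g0 i - (q0 i + 2 * ⟪v, m0 i⟫_ℝ + ‖v‖ ^ 2 * g0 i))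
        * (64 * R ^ 2 * g1 i - (q1 i - 2 * ⟪v, m1 i⟫_ℝ + ‖v‖ ^ 2 * g1 i)) ≤ H i ^ 2)
    (hsum : 0 ≤ ∑ i, (64 * R ^ 2 * (g0 i + g1 i) - (q0 i + q1 i) - 2 * H i)) :
    ∑ i, ‖m1 i - m0 i‖ ^ 2 / (g0 i + g1 i)
      ≤ 600 * R ^ 2 * ∑ i, (g1 i - g0 i) ^ 2 / (g0 i + g1 i) := by
  have hR2 : 0 < R ^ 2 := by positivity
  set SM := ∑ i, ‖m1 i - m0 i‖ ^ 2 / (g0 i + g1 i) with hSM
  set SG := ∑ i, (g1 i - g0 i) ^ 2 / (g0 i + g1 i) with hSG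
  set SQ := ∑ i, (q1 i - q0 i) ^ 2 / (g0 i + g1 i) with hSQ
  set SD := ∑ i, (64 * R ^ 2 * (g0 i + g1 i) - (q0 i + q1 i) - 2 * H i) with hSD
  have hSG0 : 0 ≤ SG := Finset.sum_nonneg (fun i _ =>
    div_nonneg (sq_nonneg _) (add_nonneg (hg0 i) (hg1 i)))
  have hQ : (15 / 8) * SQ ≤ 8192 * R ^ 4 * SG - 62 * R ^ 2 * SD := by
    rw [hSQ, hSG, hSD, Finset.mul_sum, Finset.mul_sum, Finset.mul_sum, ← Finset.sum_sub_distrib]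
    exact Finset.sum_le_sum (fun i _ =>
      cellQ hR (hg0 i) (hg1 i) (hq0 i) (hq1 i) (hq0R i) (hq1R i) (hH i) (hPLq i))
  have hM : (171 / 4) * R ^ 2 * SM ≤ 12288 * R ^ 4 * SG + 3 * SQ - 61 * R ^ 2 * SD := by
    rw [hSM, hSQ, hSG, hSD, Finset.mul_sum, Finset.mul_sum, Finset.mul_sum, Finset.mul_sum,
      ← Finset.sum_add_distrib, ← Finset.sum_sub_distrib]
    exact Finset.sum_le_sum (fun i _ =>
      cellM hR (hg0 i) (hg1 i) (hq0 i) (hq1 i) (hq0R i) (hq1R i) (hm0 i) (hm1 i) (hH i)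
        (hPLm i))
  have h1 : 0 ≤ R ^ 2 * SD := mul_nonneg hR2.le hsum
  have h2 : 0 ≤ R ^ 4 * SG := mul_nonneg (by positivity) hSG0
  have h3 : R ^ 2 * ((171 / 4) * SM) ≤ R ^ 2 * ((171 / 4) * (600 * R ^ 2 * SG)) := by
    have h4 : R ^ 2 * ((171 / 4) * (600 * R ^ 2 * SG)) = 25650 * (R ^ 4 * SG) := by ring
    rw [h4]
    linarith
  have h5 := le_of_mul_le_mul_left h3 hR2
  linarith

end Crest.Agent.Helper77
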