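import Crest.Agent.Helper77.RatTopP
import Crest.Agent.Helper82.RatComp

/-!
# The rational-arithmetic API of `RatTopC`/`RatTopP`, instantiated

The core facts (numerator, denominator, `mkRat` are primitive recursive for Mathlib's default
coding of `ℚ`) are taken from helper82's landed module `Crest.Agent.Helper82.RatComp`.
-/

namespace Crest.Agent.Helper77

/-- The primitive recursive core of `ℚ` (from `Crest.Agent.Helper82.RatComp`). -/
theorem ratCoreP : RatCoreP :=
  ⟨Crest.Agent.Helper82.primrec_rat_num, Crest.Agent.Helper82.primrec_rat_den,
    Crest.Agent.Helper82.primrec_mkRat⟩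

/-- The computable core of `ℚ`. -/
theorem ratCoreC : RatCoreC := ratCoreP.toC

end Crest.Agent.Helper77
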