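import Mathlib

/-!
# Generic `Computable` combinators missing from Mathlib

Mathlib has `Primrec.list_foldl`, `Primrec.list_map`, `Primrec.fin_curry`, … but no `Computable`
versions of the higher-order list combinators.  They are provided here (no rational numbers
involved, everything is generic in the `Primcodable` types).
-/

namespace Crest.Agent.Helper77

section
variable {α β σ : Type*} [Primcodable α] [Primcodable β] [Primcodable σ]

/-- A function into `Fin n → σ` is computable as soon as all its components are. -/
theorem computable_fin_lam {n : ℕ} {f : α → Fin n → σ}
    (hf : ∀ i, Computable (fun a => f a i)) : Computable f :=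
  (Primrec.vector_get'.to_comp.comp (Computable.vector_ofFn hf)).of_eq fun a => by
    funext i; simp

/-- A function into `Fin n → σ` is primitive recursive as soon as all its components are. -/
theorem primrec_fin_lam {n : ℕ} {f : α → Fin n → σ}
    (hf : ∀ i, Primrec (fun a => f a i)) : Primrec f :=
  (Primrec.vector_get'.comp (Primrec.vector_ofFn hf)).of_eq fun a => by
    funext i; simp

/-- Components of a computable function into `Fin n → σ` are computable. -/
theorem computable_fin_apply {n : ℕ} {f : α → Fin n → σ} (hf : Computable f) (i : Fin n) :
    Computable (fun a => f a i) :=
  Computable.fin_app.comp hf (Computable.const i)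

/-- Components of a primitive recursive function into `Fin n → σ` are primitive recursive. -/
theorem primrec_fin_apply {n : ℕ} {f : α → Fin n → σ} (hf : Primrec f) (i : Fin n) :
    Primrec (fun a => f a i) :=
  Primrec.fin_app.comp hf (Primrec.const i)

/-- Evaluation at a computable index. -/
theorem computable_fin_app {n : ℕ} {f : α → Fin n → σ} {g : α → Fin n} (hf : Computable f)
    (hg : Computable g) : Computable (fun a => f a (g a)) :=
  Computable.fin_app.comp hf hg

omit [Primcodable β] [Primcodable σ] in
theorem list_foldl_rec_eq (l : List β) (g : σ) (h : σ → β → σ) :
    ∀ n, n ≤ l.length →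
      Nat.rec (motive := fun _ => σ) g
        (fun i IH => Option.casesOn (motive := fun _ => σ) (l[i]?) IH (fun b => h IH b)) n
        = (l.take n).foldl h g := by
  intro n
  induction n with
  | zero => intro _; simp
  | succ n ih =>
    intro hn
    have hlt : n < l.length := hn
    show Option.casesOn (motive := fun _ => σ) (l[n]?) _ _ = _
    rw [ih (Nat.le_of_lt hlt), List.take_add_one, List.foldl_append, List.getElem?_eq_getElem hlt]
    simp

/-- `List.foldl` with a computable step function is computable. -/
theorem computable_list_foldl {f : α → List β} {g : α → σ} {h : α → σ × β → σ}
    (hf : Computable f) (hg : Computable g) (hh : Computable₂ h) :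
    Computable fun a => (f a).foldl (fun s b => h a (s, b)) (g a) := by
  have hstep : Computable₂ (fun (a : α) (p : ℕ × σ) =>
      Option.casesOn (motive := fun _ => σ) ((f a)[p.1]?) p.2 (fun b => h a (p.2, b))) := by
    refine Computable.option_casesOn
      (o := fun x : α × (ℕ × σ) => (f x.1)[x.2.1]?) (f := fun x : α × (ℕ × σ) => x.2.2)
      (g := fun (x : α × (ℕ × σ)) (b : β) => h x.1 (x.2.2, b)) ?_ ?_ ?_
    · exact Computable.list_getElem?.comp (hf.comp Computable.fst)
        (Computable.fst.comp Computable.snd)
    · exact Computable.snd.comp Computable.snd
    · exact hh.comp (Computable.fst.comp Computable.fst)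
        (Computable.pair (Computable.snd.comp (Computable.snd.comp Computable.fst))
          Computable.snd)
  have hrec := Computable.nat_rec (f := fun a => (f a).length) (g := g)
    (h := fun (a : α) (p : ℕ × σ) =>
      Option.casesOn (motive := fun _ => σ) ((f a)[p.1]?) p.2 (fun b => h a (p.2, b)))
    (Computable.list_length.comp hf) hg hstep
  refine hrec.of_eq fun a => ?_
  have := list_foldl_rec_eq (f a) (g a) (fun s b => h a (s, b)) (f a).length le_rfl
  rw [List.take_length] at this
  exact this

omit [Primcodable β] [Primcodable σ] in
theorem list_foldl_concat_eq (l : List β) (g : β → σ) (acc : List σ) :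
    l.foldl (fun s b => s ++ [g b]) acc = acc ++ l.map g := by
  induction l generalizing acc with
  | nil => simp
  | cons b t ih => simp [ih]

/-- `List.map` with a computable function is computable. -/
theorem computable_list_map {f : α → List β} {g : α → β → σ}
    (hf : Computable f) (hg : Computable₂ g) :
    Computable fun a => (f a).map (g a) := by
  have h := computable_list_foldl (f := f) (g := fun _ => ([] : List σ))
    (h := fun (a : α) (p : List σ × β) => p.1 ++ [g a p.2]) hf (Computable.const [])
    (Computable.list_concat.comp (Computable.fst.comp Computable.snd)
      (hg.comp Computable.fst (Computable.snd.comp Computable.snd)))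
  refine h.of_eq fun a => ?_
  simpa using list_foldl_concat_eq (f a) (g a) []

omit [Primcodable β] [Primcodable σ] in
theorem list_foldl_append_eq (l : List β) (g : β → List σ) (acc : List σ) :
    l.foldl (fun s b => s ++ g b) acc = acc ++ l.flatMap g := by
  induction l generalizing acc with
  | nil => simp
  | cons b t ih => simp [ih]

/-- `List.flatMap` with a computable function is computable. -/
theorem computable_list_flatMap {f : α → List β} {g : α → β → List σ}
    (hf : Computable f) (hg : Computable₂ g) :
    Computable fun a => (f a).flatMap (g a) := by
  have h := computable_list_foldl (f := f) (g := fun _ => ([] : List σ))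
    (h := fun (a : α) (p : List σ × β) => p.1 ++ g a p.2) hf (Computable.const [])
    (Computable.list_append.comp (Computable.fst.comp Computable.snd)
      (hg.comp Computable.fst (Computable.snd.comp Computable.snd)))
  refine h.of_eq fun a => ?_
  simpa using list_foldl_append_eq (f a) (g a) []

/-- `List.foldr` with a computable step function is computable. -/
theorem computable_list_foldr {f : α → List β} {g : α → σ} {h : α → β × σ → σ}
    (hf : Computable f) (hg : Computable g) (hh : Computable₂ h) :
    Computable fun a => (f a).foldr (fun b s => h a (b, s)) (g a) := by
  have h' := computable_list_foldl (f := fun a => (f a).reverse) (g := g)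
    (h := fun (a : α) (p : σ × β) => h a (p.2, p.1)) (Computable.list_reverse.comp hf) hg
    (hh.comp Computable.fst
      (Computable.pair (Computable.snd.comp Computable.snd) (Computable.fst.comp Computable.snd)))
  refine h'.of_eq fun a => ?_
  simp [List.foldl_reverse]

/-- `List.range` is computable. -/
theorem computable_list_range : Computable List.range := Primrec.list_range.to_comp

/-- Iteration `(step a)^[n a] (init a)` of a computable step is computable. -/
theorem computable_iterate {n : α → ℕ} {init : α → σ} {step : α → σ → σ}
    (hn : Computable n) (hi : Computable init) (hs : Computable₂ step) :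
    Computable fun a => (step a)^[n a] (init a) := by
  have h := Computable.nat_rec (f := n) (g := init)
    (h := fun (a : α) (p : ℕ × σ) => step a p.2) hn hi
    (hs.comp Computable.fst (Computable.snd.comp Computable.snd))
  refine h.of_eq fun a => ?_
  induction n a with
  | zero => rfl
  | succ k ih => rw [Function.iterate_succ_apply', ← ih]

/-- `if c a then u a else v a` for a computable Boolean test. -/
theorem computable_ite {c : α → Prop} [DecidablePred c] {u v : α → σ}
    (hc : Computable fun a => decide (c a)) (hu : Computable u) (hv : Computable v) :
    Computable fun a => if c a then u a else v a :=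
  (Computable.cond hc hu hv).of_eq fun a => by
    by_cases h : c a <;> simp [h]

end

end Crest.Agent.Helper77
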