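import Mathlib

/-!
# Primitive recursiveness of integer arithmetic

All statements are with respect to Mathlib's default `Primcodable ℤ` instance
(`Primcodable.ofDenumerable ℤ`, code of `z` = `Equiv.intEquivNat z`).
-/

namespace Crest.Agent.Helper77

open Encodable Denumerable

theorem int_encode_ofNat (n : ℕ) : encode (n : ℤ) = 2 * n := rfl

theorem int_encode_negSucc (n : ℕ) : encode (Int.negSucc n) = 2 * n + 1 := rfl

/-- `ℕ → ℤ` cast is primitive recursive. -/
theorem primrec_int_ofNat : Primrec (fun n : ℕ => (n : ℤ)) :=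
  Primrec.encode_iff.1 (Primrec.nat_double.of_eq fun n => (int_encode_ofNat n).symm)

theorem primrec_int_negSucc : Primrec Int.negSucc :=
  Primrec.encode_iff.1 (Primrec.nat_double_succ.of_eq fun n => (int_encode_negSucc n).symm)

/-- `Int.toNat` is primitive recursive. -/
theorem primrec_int_toNat : Primrec Int.toNat := by
  have hg : Primrec (fun n : ℕ => if n.bodd = true then 0 else n / 2) :=
    Primrec.ite (Primrec.eq.comp Primrec.nat_bodd (Primrec.const true)) (Primrec.const 0)
      (Primrec.nat_div.comp Primrec.id (Primrec.const 2))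
  refine (hg.comp Primrec.encode).of_eq fun z => ?_
  cases z with
  | ofNat k =>
    show (if (encode (k : ℤ)).bodd = true then 0 else encode (k : ℤ) / 2) = k
    rw [int_encode_ofNat]
    simp
  | negSucc k =>
    show (if (encode (Int.negSucc k)).bodd = true then 0 else encode (Int.negSucc k) / 2) = 0
    rw [int_encode_negSucc]
    simp

/-- `z ↦ (-z).toNat` is primitive recursive. -/
theorem primrec_int_neg_toNat : Primrec (fun z : ℤ => (-z).toNat) := by
  have hg : Primrec (fun n : ℕ => if n.bodd = true then n / 2 + 1 else 0) :=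
    Primrec.ite (Primrec.eq.comp Primrec.nat_bodd (Primrec.const true))
      (Primrec.succ.comp (Primrec.nat_div.comp Primrec.id (Primrec.const 2))) (Primrec.const 0)
  refine (hg.comp Primrec.encode).of_eq fun z => ?_
  cases z with
  | ofNat k =>
    show (if (encode (k : ℤ)).bodd = true then encode (k : ℤ) / 2 + 1 else 0) = (-(k : ℤ)).toNat
    rw [int_encode_ofNat]
    simp
  | negSucc k =>
    show (if (encode (Int.negSucc k)).bodd = true then encode (Int.negSucc k) / 2 + 1 else 0)
      = (-(Int.negSucc k)).toNat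
    rw [int_encode_negSucc, Int.neg_negSucc]
    simp
    omega

/-- `(a, b) ↦ (a : ℤ) - b` for naturals is primitive recursive. -/
theorem primrec_int_subNat : Primrec₂ (fun a b : ℕ => (a : ℤ) - (b : ℤ)) := by
  have h : Primrec (fun p : ℕ × ℕ =>
      if p.2 ≤ p.1 then ((p.1 - p.2 : ℕ) : ℤ) else Int.negSucc (p.2 - p.1 - 1)) :=
    Primrec.ite (Primrec.nat_le.comp Primrec.snd Primrec.fst)
      (primrec_int_ofNat.comp (Primrec.nat_sub.comp Primrec.fst Primrec.snd))
      (primrec_int_negSucc.comp (Primrec.nat_sub.comp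
        (Primrec.nat_sub.comp Primrec.snd Primrec.fst) (Primrec.const 1)))
  refine h.of_eq fun p => ?_
  obtain ⟨a, b⟩ := p
  by_cases hab : b ≤ a
  · simp [hab]
  · simp only [hab, if_false]
    rw [Int.negSucc_eq]
    omega

theorem int_eq_toNat_sub (z : ℤ) : z = (z.toNat : ℤ) - ((-z).toNat : ℤ) := by
  omega

/-- General principle: a function out of `ℤ` into a `Primcodable` type given through the pair
`(z.toNat, (-z).toNat)`. -/
theorem primrec_int_neg : Primrec (fun z : ℤ => -z) := by
  refine (primrec_int_subNat.comp primrec_int_neg_toNat primrec_int_toNat).of_eq fun z => ?_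
  omega

theorem primrec_int_add : Primrec₂ (fun a b : ℤ => a + b) := by
  have h : Primrec (fun p : ℤ × ℤ =>
      ((p.1.toNat + p.2.toNat : ℕ) : ℤ) - (((-p.1).toNat + (-p.2).toNat : ℕ) : ℤ)) :=
    primrec_int_subNat.comp
      (Primrec.nat_add.comp (primrec_int_toNat.comp Primrec.fst) (primrec_int_toNat.comp Primrec.snd))
      (Primrec.nat_add.comp (primrec_int_neg_toNat.comp Primrec.fst)
        (primrec_int_neg_toNat.comp Primrec.snd))
  refine h.of_eq fun p => ?_
  obtain ⟨a, b⟩ := p
  simp only
  omega

theorem primrec_int_sub : Primrec₂ (fun a b : ℤ => a - b) :=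
  (primrec_int_add.comp Primrec.fst (primrec_int_neg.comp Primrec.snd)).of_eq fun p => by
    simp [sub_eq_add_neg]

theorem primrec_int_mul : Primrec₂ (fun a b : ℤ => a * b) := by
  have h : Primrec (fun p : ℤ × ℤ =>
      ((p.1.toNat * p.2.toNat + (-p.1).toNat * (-p.2).toNat : ℕ) : ℤ)
        - ((p.1.toNat * (-p.2).toNat + (-p.1).toNat * p.2.toNat : ℕ) : ℤ)) :=
    primrec_int_subNat.comp
      (Primrec.nat_add.comp
        (Primrec.nat_mul.comp (primrec_int_toNat.comp Primrec.fst) (primrec_int_toNat.comp Primrec.snd))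
        (Primrec.nat_mul.comp (primrec_int_neg_toNat.comp Primrec.fst)
          (primrec_int_neg_toNat.comp Primrec.snd)))
      (Primrec.nat_add.comp
        (Primrec.nat_mul.comp (primrec_int_toNat.comp Primrec.fst)
          (primrec_int_neg_toNat.comp Primrec.snd))
        (Primrec.nat_mul.comp (primrec_int_neg_toNat.comp Primrec.fst)
          (primrec_int_toNat.comp Primrec.snd)))
  refine h.of_eq fun p => ?_
  obtain ⟨a, b⟩ := p
  simp only
  have ha := int_eq_toNat_sub a
  have hb := int_eq_toNat_sub b
  push_cast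
  generalize (a.toNat : ℤ) = x at *
  generalize ((-a).toNat : ℤ) = y at *
  generalize (b.toNat : ℤ) = u at *
  generalize ((-b).toNat : ℤ) = v at *
  subst ha hb
  ring

theorem primrec_int_natAbs : Primrec Int.natAbs :=
  (Primrec.nat_add.comp primrec_int_toNat primrec_int_neg_toNat).of_eq fun z => by omega

/-- `a ≤ b` on `ℤ` is a primitive recursive relation. -/
theorem primrecRel_int_le : PrimrecRel (fun a b : ℤ => a ≤ b) := by
  have h : PrimrecPred (fun p : ℤ × ℤ =>
      p.1.toNat + (-p.2).toNat ≤ p.2.toNat + (-p.1).toNat) :=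
    Primrec.nat_le.comp
      (Primrec.nat_add.comp (primrec_int_toNat.comp Primrec.fst)
        (primrec_int_neg_toNat.comp Primrec.snd))
      (Primrec.nat_add.comp (primrec_int_toNat.comp Primrec.snd)
        (primrec_int_neg_toNat.comp Primrec.fst))
  refine h.of_eq fun p => ?_
  obtain ⟨a, b⟩ := p
  simp only
  omega

theorem primrecRel_int_lt : PrimrecRel (fun a b : ℤ => a < b) := by
  have h : PrimrecPred (fun p : ℤ × ℤ =>
      p.1.toNat + (-p.2).toNat < p.2.toNat + (-p.1).toNat) :=
    Primrec.nat_lt.comp
      (Primrec.nat_add.comp (primrec_int_toNat.comp Primrec.fst)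
        (primrec_int_neg_toNat.comp Primrec.snd))
      (Primrec.nat_add.comp (primrec_int_toNat.comp Primrec.snd)
        (primrec_int_neg_toNat.comp Primrec.fst))
  refine h.of_eq fun p => ?_
  obtain ⟨a, b⟩ := p
  simp only
  omega

end Crest.Agent.Helper77
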