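import Mathlib
import Crest.Agent.Helper77.IntPrim

/-!
# Fraction-level arithmetic: primitive recursive functions on `ℤ × ℕ` implementing `ℚ`-arithmetic

A pair `p : ℤ × ℕ` stands for the rational number `val p = mkRat p.1 p.2 = p.1 / p.2`.
Everything here is independent of the coding of `ℚ`: the functions act on `ℤ × ℕ` only.
-/

namespace Crest.Agent.Helper77

/-- numerator/denominator pair of a rational. -/
def nd (q : ℚ) : ℤ × ℕ := (q.num, q.den)

/-- value of a fraction. -/
def val (p : ℤ × ℕ) : ℚ := mkRat p.1 p.2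

theorem val_nd (q : ℚ) : val (nd q) = q := Rat.mkRat_self q

theorem val_eq (p : ℤ × ℕ) : val p = (p.1 : ℚ) / (p.2 : ℚ) := Rat.mkRat_eq_div _ _

theorem val_mk (z : ℤ) (d : ℕ) : val (z, d) = (z : ℚ) / (d : ℚ) := Rat.mkRat_eq_div _ _

theorem nd_snd_pos (q : ℚ) : 0 < (nd q).2 := q.den_pos

theorem nd_snd_ne (q : ℚ) : (nd q).2 ≠ 0 := q.den_ne_zero

/-! ### the operations -/

def fracAdd (p q : ℤ × ℕ) : ℤ × ℕ := (p.1 * (q.2 : ℤ) + q.1 * (p.2 : ℤ), p.2 * q.2)

def fracNeg (p : ℤ × ℕ) : ℤ × ℕ := (-p.1, p.2)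

def fracSub (p q : ℤ × ℕ) : ℤ × ℕ := fracAdd p (fracNeg q)

def fracMul (p q : ℤ × ℕ) : ℤ × ℕ := (p.1 * q.1, p.2 * q.2)

def fracInv (p : ℤ × ℕ) : ℤ × ℕ := (if 0 ≤ p.1 then (p.2 : ℤ) else -(p.2 : ℤ), p.1.natAbs)

def fracDiv (p q : ℤ × ℕ) : ℤ × ℕ := fracMul p (fracInv q)

def fracAbs (p : ℤ × ℕ) : ℤ × ℕ := ((p.1.natAbs : ℤ), p.2)

def fracPow (p : ℤ × ℕ) (n : ℕ) : ℤ × ℕ := (p.1 ^ n, p.2 ^ n)

def fracLe (p q : ℤ × ℕ) : Prop := p.1 * (q.2 : ℤ) ≤ q.1 * (p.2 : ℤ)

def fracLt (p q : ℤ × ℕ) : Prop := p.1 * (q.2 : ℤ) < q.1 * (p.2 : ℤ)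

instance : DecidableRel fracLe := fun p q => by unfold fracLe; infer_instance

instance : DecidableRel fracLt := fun p q => by unfold fracLt; infer_instance

def fracMax (p q : ℤ × ℕ) : ℤ × ℕ := if fracLe p q then q else p

def fracMin (p q : ℤ × ℕ) : ℤ × ℕ := if fracLe p q then p else q

def fracCeil (p : ℤ × ℕ) : ℕ := (p.1.toNat + p.2 - 1) / p.2

def fracFloor (p : ℤ × ℕ) : ℕ := p.1.toNat / p.2

/-! ### semantics -/

theorem val_fracAdd {p q : ℤ × ℕ} (hp : p.2 ≠ 0) (hq : q.2 ≠ 0) :
    val (fracAdd p q) = val p + val q := by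
  have hp' : (p.2 : ℚ) ≠ 0 := Nat.cast_ne_zero.2 hp
  have hq' : (q.2 : ℚ) ≠ 0 := Nat.cast_ne_zero.2 hq
  simp only [val_eq, fracAdd]
  push_cast
  field_simp

theorem val_fracNeg (p : ℤ × ℕ) : val (fracNeg p) = -val p := by
  simp only [val_eq, fracNeg]
  push_cast
  ring

theorem val_fracSub {p q : ℤ × ℕ} (hp : p.2 ≠ 0) (hq : q.2 ≠ 0) :
    val (fracSub p q) = val p - val q := by
  rw [fracSub, val_fracAdd hp (by exact hq), val_fracNeg, sub_eq_add_neg]

theorem val_fracMul (p q : ℤ × ℕ) : val (fracMul p q) = val p * val q := by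
  simp only [val_eq, fracMul]
  push_cast
  rw [div_mul_div_comm]

theorem val_fracInv (p : ℤ × ℕ) : val (fracInv p) = (val p)⁻¹ := by
  simp only [val_eq, fracInv, inv_div]
  by_cases h : 0 ≤ p.1
  · rw [if_pos h]
    have : ((p.1.natAbs : ℕ) : ℚ) = (p.1 : ℚ) := by
      rw [Nat.cast_natAbs, Int.cast_abs, abs_of_nonneg (by exact_mod_cast h)]
    rw [this]
    push_cast
    rfl
  · rw [if_neg h]
    have h' : p.1 ≤ 0 := by omega
    have : ((p.1.natAbs : ℕ) : ℚ) = -(p.1 : ℚ) := by
      rw [Nat.cast_natAbs, Int.cast_abs, abs_of_nonpos (by exact_mod_cast h')]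
    rw [this]
    push_cast
    rw [neg_div_neg_eq]

theorem val_fracDiv (p q : ℤ × ℕ) : val (fracDiv p q) = val p / val q := by
  rw [fracDiv, val_fracMul, val_fracInv, div_eq_mul_inv]

theorem val_fracAbs (p : ℤ × ℕ) : val (fracAbs p) = |val p| := by
  simp only [val_eq, fracAbs]
  rw [abs_div, Nat.abs_cast]
  congr 1
  rw [Int.cast_natCast, Nat.cast_natAbs, Int.cast_abs]

theorem val_fracPow (p : ℤ × ℕ) (n : ℕ) : val (fracPow p n) = val p ^ n := by
  simp only [val_eq, fracPow]
  push_cast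
  rw [div_pow]

theorem fracLe_iff {p q : ℤ × ℕ} (hp : 0 < p.2) (hq : 0 < q.2) :
    fracLe p q ↔ val p ≤ val q := by
  have hp' : (0 : ℚ) < (p.2 : ℚ) := Nat.cast_pos.2 hp
  have hq' : (0 : ℚ) < (q.2 : ℚ) := Nat.cast_pos.2 hq
  simp only [val_eq, fracLe]
  rw [div_le_div_iff₀ hp' hq']
  constructor
  · intro h
    exact_mod_cast h
  · intro h
    exact_mod_cast h

theorem fracLt_iff {p q : ℤ × ℕ} (hp : 0 < p.2) (hq : 0 < q.2) :
    fracLt p q ↔ val p < val q := by
  have hp' : (0 : ℚ) < (p.2 : ℚ) := Nat.cast_pos.2 hp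
  have hq' : (0 : ℚ) < (q.2 : ℚ) := Nat.cast_pos.2 hq
  simp only [val_eq, fracLt]
  rw [div_lt_div_iff₀ hp' hq']
  constructor
  · intro h
    exact_mod_cast h
  · intro h
    exact_mod_cast h

theorem val_fracMax {p q : ℤ × ℕ} (hp : 0 < p.2) (hq : 0 < q.2) :
    val (fracMax p q) = max (val p) (val q) := by
  unfold fracMax
  by_cases h : fracLe p q
  · rw [if_pos h, max_eq_right ((fracLe_iff hp hq).1 h)]
  · rw [if_neg h, max_eq_left (le_of_not_ge fun h' => h ((fracLe_iff hp hq).2 h'))]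

theorem val_fracMin {p q : ℤ × ℕ} (hp : 0 < p.2) (hq : 0 < q.2) :
    val (fracMin p q) = min (val p) (val q) := by
  unfold fracMin
  by_cases h : fracLe p q
  · rw [if_pos h, min_eq_left ((fracLe_iff hp hq).1 h)]
  · rw [if_neg h, min_eq_right (le_of_not_ge fun h' => h ((fracLe_iff hp hq).2 h'))]

theorem fracFloor_eq {p : ℤ × ℕ} : fracFloor p = ⌊val p⌋₊ := by
  obtain ⟨z, d⟩ := p
  simp only [val_eq, fracFloor]
  by_cases hz : 0 ≤ z
  · have : (z : ℚ) = ((z.toNat : ℕ) : ℚ) := by
      have := Int.toNat_of_nonneg hz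
      exact_mod_cast this.symm
    rw [this, Nat.floor_div_eq_div]
  · have hz' : z.toNat = 0 := by omega
    rw [hz', Nat.zero_div]
    symm
    apply Nat.floor_of_nonpos
    apply div_nonpos_of_nonpos_of_nonneg
    · have : z ≤ 0 := by omega
      exact_mod_cast this
    · exact Nat.cast_nonneg d

theorem fracCeil_eq {p : ℤ × ℕ} (hp : 0 < p.2) : fracCeil p = ⌈val p⌉₊ := by
  obtain ⟨z, d⟩ := p
  simp only at hp
  have hd : (0 : ℚ) < (d : ℚ) := Nat.cast_pos.2 hp
  simp only [val_eq, fracCeil]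
  symm
  by_cases hz : 0 < z
  · have hz1 : 0 < z.toNat := by omega
    have hzq : (z : ℚ) = ((z.toNat : ℕ) : ℚ) := by
      have := Int.toNat_of_nonneg hz.le
      exact_mod_cast this.symm
    rw [hzq]
    set n := z.toNat with hn
    have hk : 0 < (n + d - 1) / d := by
      apply Nat.div_pos _ hp
      omega
    rw [Nat.ceil_eq_iff hk.ne']
    constructor
    · rw [lt_div_iff₀ hd]
      have h1 : ((n + d - 1) / d - 1) * d < n := by
        have h2 : (n + d - 1) / d * d ≤ n + d - 1 := Nat.div_mul_le_self _ _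
        have h3 : ((n + d - 1) / d - 1) * d = (n + d - 1) / d * d - d := by
          rw [Nat.sub_mul, one_mul]
        omega
      exact_mod_cast h1
    · rw [div_le_iff₀ hd]
      have h1 : n ≤ (n + d - 1) / d * d := by
        have h2 := Nat.div_add_mod (n + d - 1) d
        have h3 : (n + d - 1) % d < d := Nat.mod_lt _ hp
        have h4 : d * ((n + d - 1) / d) = (n + d - 1) / d * d := Nat.mul_comm _ _
        omega
      exact_mod_cast h1
  · have hz' : z.toNat = 0 := by omega
    rw [hz', Nat.zero_add, Nat.div_eq_of_lt (by omega)]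
    apply Nat.ceil_eq_zero.2
    apply div_nonpos_of_nonpos_of_nonneg
    · have : z ≤ 0 := by omega
      exact_mod_cast this
    · exact hd.le

/-! ### primitive recursiveness -/

theorem primrec_fracAdd : Primrec₂ fracAdd := by
  unfold fracAdd
  exact Primrec.pair
    (primrec_int_add.comp
      (primrec_int_mul.comp (Primrec.fst.comp Primrec.fst)
        (primrec_int_ofNat.comp (Primrec.snd.comp Primrec.snd)))
      (primrec_int_mul.comp (Primrec.fst.comp Primrec.snd)
        (primrec_int_ofNat.comp (Primrec.snd.comp Primrec.fst))))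
    (Primrec.nat_mul.comp (Primrec.snd.comp Primrec.fst) (Primrec.snd.comp Primrec.snd))

theorem primrec_fracNeg : Primrec fracNeg := by
  unfold fracNeg
  exact Primrec.pair (primrec_int_neg.comp Primrec.fst) Primrec.snd

theorem primrec_fracSub : Primrec₂ fracSub := by
  unfold fracSub
  exact primrec_fracAdd.comp Primrec.fst (primrec_fracNeg.comp Primrec.snd)

theorem primrec_fracMul : Primrec₂ fracMul := by
  unfold fracMul
  exact Primrec.pair
    (primrec_int_mul.comp (Primrec.fst.comp Primrec.fst) (Primrec.fst.comp Primrec.snd))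
    (Primrec.nat_mul.comp (Primrec.snd.comp Primrec.fst) (Primrec.snd.comp Primrec.snd))

theorem primrec_fracInv : Primrec fracInv := by
  unfold fracInv
  exact Primrec.pair
    (Primrec.ite (primrecRel_int_le.comp (Primrec.const 0) Primrec.fst)
      (primrec_int_ofNat.comp Primrec.snd)
      (primrec_int_neg.comp (primrec_int_ofNat.comp Primrec.snd)))
    (primrec_int_natAbs.comp Primrec.fst)

theorem primrec_fracDiv : Primrec₂ fracDiv := by
  unfold fracDiv
  exact primrec_fracMul.comp Primrec.fst (primrec_fracInv.comp Primrec.snd)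

theorem primrec_fracAbs : Primrec fracAbs := by
  unfold fracAbs
  exact Primrec.pair (primrec_int_ofNat.comp (primrec_int_natAbs.comp Primrec.fst)) Primrec.snd

theorem primrec_nat_pow : Primrec₂ (fun a b : ℕ => a ^ b) :=
  Primrec₂.unpaired'.1 Nat.Primrec.pow

theorem primrec_int_pow : Primrec₂ (fun (z : ℤ) (n : ℕ) => z ^ n) := by
  have h : Primrec₂ (fun (z : ℤ) (n : ℕ) =>
      n.rec (motive := fun _ => ℤ) (1 : ℤ) fun _ IH => IH * z) :=
    Primrec.nat_rec (f := fun _ : ℤ => (1 : ℤ)) (g := fun (z : ℤ) (p : ℕ × ℤ) => p.2 * z)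
      (Primrec.const 1)
      (primrec_int_mul.comp (Primrec.snd.comp Primrec.snd) Primrec.fst)
  refine h.of_eq fun z n => ?_
  induction n with
  | zero => simp
  | succ n ih => simp only [pow_succ]; rw [← ih]

theorem primrec_fracPow : Primrec₂ fracPow := by
  unfold fracPow
  exact Primrec.pair
    (primrec_int_pow.comp (Primrec.fst.comp Primrec.fst) Primrec.snd)
    (primrec_nat_pow.comp (Primrec.snd.comp Primrec.fst) Primrec.snd)

theorem primrecRel_fracLe : PrimrecRel fracLe := by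
  unfold fracLe
  exact primrecRel_int_le.comp
    (primrec_int_mul.comp (Primrec.fst.comp Primrec.fst)
      (primrec_int_ofNat.comp (Primrec.snd.comp Primrec.snd)))
    (primrec_int_mul.comp (Primrec.fst.comp Primrec.snd)
      (primrec_int_ofNat.comp (Primrec.snd.comp Primrec.fst)))

theorem primrecRel_fracLt : PrimrecRel fracLt := by
  unfold fracLt
  exact primrecRel_int_lt.comp
    (primrec_int_mul.comp (Primrec.fst.comp Primrec.fst)
      (primrec_int_ofNat.comp (Primrec.snd.comp Primrec.snd)))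
    (primrec_int_mul.comp (Primrec.fst.comp Primrec.snd)
      (primrec_int_ofNat.comp (Primrec.snd.comp Primrec.fst)))

theorem primrec_fracMax : Primrec₂ fracMax := by
  unfold fracMax
  exact Primrec.ite primrecRel_fracLe Primrec.snd Primrec.fst

theorem primrec_fracMin : Primrec₂ fracMin := by
  unfold fracMin
  exact Primrec.ite primrecRel_fracLe Primrec.fst Primrec.snd

theorem primrec_fracCeil : Primrec fracCeil := by
  unfold fracCeil
  exact Primrec.nat_div.comp
    (Primrec.nat_sub.comp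
      (Primrec.nat_add.comp (primrec_int_toNat.comp Primrec.fst) Primrec.snd) (Primrec.const 1))
    Primrec.snd

theorem primrec_fracFloor : Primrec fracFloor := by
  unfold fracFloor
  exact Primrec.nat_div.comp (primrec_int_toNat.comp Primrec.fst) Primrec.snd

end Crest.Agent.Helper77
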