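/-
helper77 — Prékopa–Leindler inequality, one-dimensional case (midpoint form).

Main result: `Crest.Agent.Helper77.prekopa_leindler_real`:
for measurable `f g h : ℝ → ℝ≥0∞` with `f x * g y ≤ h ((1/2) • (x + y)) ^ 2` for all `x y`,
`(∫⁻ f) * (∫⁻ g) ≤ (∫⁻ h) ^ 2`.

Proof: 1-D Brunn–Minkowski `|A| + |B| ≤ |A + B|` (outer measure; compact case by
`max A`/`min B`, general case by inner regularity), layer-cake formula after normalising
the suprema to `1`, AM–GM, and truncation `min f n` for unbounded functions.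
-/
import Mathlib

set_option autoImplicit false
open MeasureTheory Set
open scoped ENNReal Pointwise

namespace Crest.Agent.Helper77

/-- One-dimensional Brunn–Minkowski for nonempty compact sets. -/
theorem volume_add_le_of_isCompact {A B : Set ℝ} (hA : IsCompact A) (hB : IsCompact B)
    (hAn : A.Nonempty) (hBn : B.Nonempty) :
    volume A + volume B ≤ volume (A + B) := by
  obtain ⟨a, haA, ha⟩ := hA.exists_isGreatest hAn
  obtain ⟨b, hbB, hb⟩ := hB.exists_isLeast hBn
  set S : Set ℝ := (fun x => x + (-b)) ⁻¹' A with hS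
  set T : Set ℝ := (fun x => x + (-a)) ⁻¹' B with hT
  have hTm : MeasurableSet T :=
    (measurable_id.add_const _) hB.measurableSet
  have hSA : volume S = volume A := measure_preimage_add_right volume (-b) A
  have hTB : volume T = volume B := measure_preimage_add_right volume (-a) B
  have hsub : S ∪ T ⊆ A + B := by
    rintro x (hx | hx)
    · exact ⟨x + -b, hx, b, hbB, by ring⟩
    · exact ⟨a, haA, x + -a, hx, by ring⟩
  have hint : S ∩ T ⊆ {a + b} := by
    rintro x ⟨hx1, hx2⟩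
    have h1 : x + -b ≤ a := ha hx1
    have h2 : b ≤ x + -a := hb hx2
    simp only [mem_singleton_iff]
    linarith
  have h0 : volume (S ∩ T) = 0 :=
    measure_mono_null hint (Real.volume_singleton)
  calc volume A + volume B = volume S + volume T := by rw [hSA, hTB]
    _ = volume (S ∪ T) + volume (S ∩ T) := (measure_union_add_inter S hTm).symm
    _ = volume (S ∪ T) := by rw [h0, add_zero]
    _ ≤ volume (A + B) := measure_mono hsub

/-- One-dimensional Brunn–Minkowski for nonempty measurable sets (outer measure of the sumset). -/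
theorem volume_add_le {A B : Set ℝ} (hA : MeasurableSet A) (hB : MeasurableSet B)
    (hAn : A.Nonempty) (hBn : B.Nonempty) :
    volume A + volume B ≤ volume (A + B) := by
  obtain ⟨a0, ha0⟩ := hAn
  obtain ⟨b0, hb0⟩ := hBn
  by_cases hA0 : volume A = 0
  · rw [hA0, zero_add]
    calc volume B = volume ((fun x => x + (-a0)) ⁻¹' B) :=
          (measure_preimage_add_right volume (-a0) B).symm
      _ ≤ volume (A + B) := measure_mono (fun x hx => ⟨a0, ha0, x + -a0, hx, by ring⟩)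
  by_cases hB0 : volume B = 0
  · rw [hB0, add_zero]
    calc volume A = volume ((fun x => x + (-b0)) ⁻¹' A) :=
          (measure_preimage_add_right volume (-b0) A).symm
      _ ≤ volume (A + B) := measure_mono (fun x hx => ⟨x + -b0, hx, b0, hb0, by ring⟩)
  refine le_of_forall_lt_imp_le_of_dense ?_
  intro c hc
  obtain ⟨r, hr, s, hs, hcrs⟩ := ENNReal.exists_lt_add_of_lt_add hc hA0 hB0
  obtain ⟨K, hKA, hK, hrK⟩ := hA.exists_lt_isCompact hr
  obtain ⟨L, hLB, hL, hsL⟩ := hB.exists_lt_isCompact hs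
  have hKn : K.Nonempty := nonempty_of_measure_ne_zero (ne_bot_of_gt hrK)
  have hLn : L.Nonempty := nonempty_of_measure_ne_zero (ne_bot_of_gt hsL)
  calc c ≤ r + s := hcrs.le
    _ ≤ volume K + volume L := add_le_add hrK.le hsL.le
    _ ≤ volume (K + L) := volume_add_le_of_isCompact hK hL hKn hLn
    _ ≤ volume (A + B) := measure_mono (Set.add_subset_add hKA hLB)

/-- Layer-cake upper bound for a `[0,1]`-valued function. -/
theorem lintegral_le_layer_Ioo (f : ℝ → ℝ≥0∞) (hf : Measurable f) (hf1 : ∀ x, f x ≤ 1) :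
    ∫⁻ x, f x ≤ ∫⁻ t in Ioo (0:ℝ) 1, volume {a : ℝ | t < (f a).toReal} := by
  have hne : ∀ x, f x ≠ ⊤ := fun x => ne_top_of_le_ne_top ENNReal.one_ne_top (hf1 x)
  have h1 : ∫⁻ x, f x = ∫⁻ x, ENNReal.ofReal ((f x).toReal) := by
    refine lintegral_congr (fun x => ?_)
    rw [ENNReal.ofReal_toReal (hne x)]
  rw [h1, lintegral_eq_lintegral_meas_lt volume
    (Filter.Eventually.of_forall (fun x => ENNReal.toReal_nonneg)) hf.ennreal_toReal.aemeasurable]
  rw [← Ioo_union_Ici_eq_Ioi (zero_lt_one' ℝ),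
    lintegral_union measurableSet_Ici
      ((Iio_disjoint_Ici le_rfl).mono_left Ioo_subset_Iio_self)]
  have h0 : ∫⁻ t in Ici (1:ℝ), volume {a : ℝ | t < (f a).toReal} = 0 := by
    rw [← lintegral_zero (μ := volume.restrict (Ici (1:ℝ)))]
    refine setLIntegral_congr_fun measurableSet_Ici (fun t ht => ?_)
    have : {a : ℝ | t < (f a).toReal} = ∅ := by
      ext a
      simp only [Set.mem_ofPred_eq, mem_empty_iff_false, iff_false, not_lt]
      have : (f a).toReal ≤ 1 := by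
        have := ENNReal.toReal_mono ENNReal.one_ne_top (hf1 a)
        simpa using this
      exact this.trans ht
    rw [this, measure_empty]
  rw [h0, add_zero]

/-- Core: normalized one-dimensional Prékopa–Leindler (midpoint form). -/
theorem pl_one_core (f g h : ℝ → ℝ≥0∞) (hf : Measurable f) (hg : Measurable g)
    (hh : Measurable h) (hf1 : ∀ x, f x ≤ 1) (hg1 : ∀ x, g x ≤ 1)
    (hfs : ∀ t : ℝ≥0∞, t < 1 → ∃ x, t < f x) (hgs : ∀ t : ℝ≥0∞, t < 1 → ∃ x, t < g x)
    (H : ∀ x y, f x * g y ≤ h ((1 / 2 : ℝ) • (x + y)) ^ 2) :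
    (∫⁻ x, f x) + ∫⁻ x, g x ≤ 2 * ∫⁻ x, h x := by
  have hfne : ∀ x, f x ≠ ⊤ := fun x => ne_top_of_le_ne_top ENNReal.one_ne_top (hf1 x)
  have hgne : ∀ x, g x ≠ ⊤ := fun x => ne_top_of_le_ne_top ENNReal.one_ne_top (hg1 x)
  set hr : ℝ → ℝ := fun x => (min (h x) 1).toReal with hhr
  have hhrm : Measurable hr := (hh.min measurable_const).ennreal_toReal
  have hmne : ∀ x, min (h x) 1 ≠ ⊤ := fun x =>
    ne_top_of_le_ne_top ENNReal.one_ne_top (min_le_right _ _)
  -- pointwise level-set inequality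
  have key : ∀ t ∈ Ioo (0:ℝ) 1,
      volume {a : ℝ | t < (f a).toReal} + volume {a : ℝ | t < (g a).toReal}
        ≤ 2 * volume {a : ℝ | t < hr a} := by
    intro t ht
    have ht1 : ENNReal.ofReal t < 1 := by
      rw [← ENNReal.ofReal_one]
      exact (ENNReal.ofReal_lt_ofReal_iff zero_lt_one).2 ht.2
    set A : Set ℝ := {a : ℝ | t < (f a).toReal} with hA
    set B : Set ℝ := {a : ℝ | t < (g a).toReal} with hB
    have hAm : MeasurableSet A := measurableSet_lt measurable_const hf.ennreal_toReal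
    have hBm : MeasurableSet B := measurableSet_lt measurable_const hg.ennreal_toReal
    have hAn : A.Nonempty := by
      obtain ⟨x, hx⟩ := hfs _ ht1
      exact ⟨x, (ENNReal.ofReal_lt_iff_lt_toReal ht.1.le (hfne x)).1 hx⟩
    have hBn : B.Nonempty := by
      obtain ⟨x, hx⟩ := hgs _ ht1
      exact ⟨x, (ENNReal.ofReal_lt_iff_lt_toReal ht.1.le (hgne x)).1 hx⟩
    have hsub : (1 / 2 : ℝ) • (A + B) ⊆ {a : ℝ | t < hr a} := by
      rintro z ⟨w, ⟨x, hx, y, hy, rfl⟩, rfl⟩
      have hx' : ENNReal.ofReal t < f x := (ENNReal.ofReal_lt_iff_lt_toReal ht.1.le (hfne x)).2 hx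
      have hy' : ENNReal.ofReal t < g y := (ENNReal.ofReal_lt_iff_lt_toReal ht.1.le (hgne y)).2 hy
      have h1 : ENNReal.ofReal t * ENNReal.ofReal t < f x * g y := ENNReal.mul_lt_mul hx' hy'
      have h2 : ENNReal.ofReal t ^ 2 < h ((1 / 2 : ℝ) • (x + y)) ^ 2 := by
        rw [sq]; exact lt_of_lt_of_le h1 (H x y)
      have h3 : ENNReal.ofReal t < h ((1 / 2 : ℝ) • (x + y)) := by
        by_contra hcon
        exact absurd (pow_le_pow_left' (not_lt.1 hcon) 2) (not_le.2 h2)
      have h4 : ENNReal.ofReal t < min (h ((1 / 2 : ℝ) • (x + y))) 1 := lt_min h3 ht1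
      exact (ENNReal.ofReal_lt_iff_lt_toReal ht.1.le (hmne _)).1 h4
    have hscale : volume (A + B) = 2 * volume ((1 / 2 : ℝ) • (A + B)) := by
      rw [Measure.addHaar_smul]
      simp only [one_div, Module.finrank_self, pow_one, abs_inv, Nat.abs_ofNat,
        Nat.ofNat_pos, ENNReal.ofReal_inv_of_pos, ENNReal.ofReal_ofNat]
      rw [← mul_assoc, ENNReal.mul_inv_cancel two_ne_zero ENNReal.ofNat_ne_top, one_mul]
    calc volume A + volume B ≤ volume (A + B) := volume_add_le hAm hBm hAn hBn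
      _ = 2 * volume ((1 / 2 : ℝ) • (A + B)) := hscale
      _ ≤ 2 * volume {a : ℝ | t < hr a} := by gcongr
  calc (∫⁻ x, f x) + ∫⁻ x, g x
      ≤ (∫⁻ t in Ioo (0:ℝ) 1, volume {a : ℝ | t < (f a).toReal})
        + ∫⁻ t in Ioo (0:ℝ) 1, volume {a : ℝ | t < (g a).toReal} :=
        add_le_add (lintegral_le_layer_Ioo f hf hf1) (lintegral_le_layer_Ioo g hg hg1)
    _ ≤ ∫⁻ t in Ioo (0:ℝ) 1, (volume {a : ℝ | t < (f a).toReal}
          + volume {a : ℝ | t < (g a).toReal}) := le_lintegral_add _ _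
    _ ≤ ∫⁻ t in Ioo (0:ℝ) 1, 2 * volume {a : ℝ | t < hr a} :=
        setLIntegral_mono' measurableSet_Ioo key
    _ = 2 * ∫⁻ t in Ioo (0:ℝ) 1, volume {a : ℝ | t < hr a} :=
        lintegral_const_mul' _ _ (by simp)
    _ ≤ 2 * ∫⁻ t in Ioi (0:ℝ), volume {a : ℝ | t < hr a} := by
        gcongr
        exact Ioo_subset_Ioi_self
    _ = 2 * ∫⁻ x, ENNReal.ofReal (hr x) := by
        rw [lintegral_eq_lintegral_meas_lt volume
          (Filter.Eventually.of_forall (fun x => ENNReal.toReal_nonneg)) hhrm.aemeasurable]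
    _ ≤ 2 * ∫⁻ x, h x := by
        gcongr with x
        rw [hhr, ENNReal.ofReal_toReal (hmne x)]
        exact min_le_left _ _

/-- AM–GM in `ℝ≥0∞`. -/
theorem ennreal_mul_le_sq_of_add_le {X Y Z : ℝ≥0∞} (h : X + Y ≤ 2 * Z) : X * Y ≤ Z ^ 2 := by
  by_cases hZ : Z = ⊤
  · simp [hZ]
  have h2Z : 2 * Z ≠ ⊤ := ENNReal.mul_ne_top ENNReal.ofNat_ne_top hZ
  have hX : X ≠ ⊤ := ne_top_of_le_ne_top h2Z (le_self_add.trans h)
  have hY : Y ≠ ⊤ := ne_top_of_le_ne_top h2Z (le_add_self.trans h)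
  lift X to NNReal using hX
  lift Y to NNReal using hY
  lift Z to NNReal using hZ
  have h' : (X : ℝ) + Y ≤ 2 * Z := by exact_mod_cast h
  have h3 : (X : ℝ) * Y ≤ (Z : ℝ) ^ 2 := by
    nlinarith [sq_nonneg ((X : ℝ) - Y), X.coe_nonneg, Y.coe_nonneg, Z.coe_nonneg,
      mul_nonneg (sub_nonneg.2 h') (by positivity : (0:ℝ) ≤ 2 * Z + (X + Y))]
  exact_mod_cast h3

/-- One-dimensional PL when `f`, `g` have finite suprema. -/
theorem pl_one_of_iSup (f g h : ℝ → ℝ≥0∞) (hf : Measurable f) (hg : Measurable g)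
    (hh : Measurable h) (hfa : (⨆ x, f x) ≠ ⊤) (hgb : (⨆ x, g x) ≠ ⊤)
    (H : ∀ x y, f x * g y ≤ h ((1 / 2 : ℝ) • (x + y)) ^ 2) :
    (∫⁻ x, f x) * (∫⁻ x, g x) ≤ (∫⁻ x, h x) ^ 2 := by
  set a := ⨆ x, f x with ha
  set b := ⨆ x, g x with hb
  by_cases ha0 : a = 0
  · have : ∀ x, f x = 0 := fun x => le_antisymm (ha0 ▸ le_iSup f x) zero_le
    simp [this]
  by_cases hb0 : b = 0
  · have : ∀ x, g x = 0 := fun x => le_antisymm (hb0 ▸ le_iSup g x) zero_le
    simp [this]
  set c : ℝ≥0∞ := (a * b) ^ (1 / 2 : ℝ) with hc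
  have hc2 : c ^ 2 = a * b := by
    rw [hc, ← ENNReal.rpow_natCast, ← ENNReal.rpow_mul]
    norm_num
  have hab0 : a * b ≠ 0 := mul_ne_zero ha0 hb0
  have habt : a * b ≠ ⊤ := ENNReal.mul_ne_top hfa hgb
  have hc0 : c ≠ 0 := by
    intro h0
    rw [h0] at hc2
    exact hab0 (by simpa using hc2.symm)
  have hct : c ≠ ⊤ := by
    intro h0
    rw [h0] at hc2
    exact habt (by simpa using hc2.symm)
  -- normalized functions
  have hF : ∫⁻ x, f x = a * ∫⁻ x, f x / a := by
    rw [← lintegral_const_mul a (hf.div_const a)]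
    exact lintegral_congr (fun x => (ENNReal.mul_div_cancel ha0 hfa).symm)
  have hG : ∫⁻ x, g x = b * ∫⁻ x, g x / b := by
    rw [← lintegral_const_mul b (hg.div_const b)]
    exact lintegral_congr (fun x => (ENNReal.mul_div_cancel hb0 hgb).symm)
  have hH : ∫⁻ x, h x = c * ∫⁻ x, h x / c := by
    rw [← lintegral_const_mul c (hh.div_const c)]
    exact lintegral_congr (fun x => (ENNReal.mul_div_cancel hc0 hct).symm)
  have core := pl_one_core (fun x => f x / a) (fun x => g x / b) (fun x => h x / c)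
    (hf.div_const a) (hg.div_const b) (hh.div_const c)
    (fun x => ENNReal.div_le_of_le_mul (by rw [one_mul]; exact le_iSup f x))
    (fun x => ENNReal.div_le_of_le_mul (by rw [one_mul]; exact le_iSup g x))
    (fun t ht => by
      have h1 : t * a < a := by
        calc t * a = a * t := mul_comm _ _
          _ < a * 1 := ENNReal.mul_lt_mul_right ha0 hfa ht
          _ = a := mul_one a
      obtain ⟨x, hx⟩ := lt_iSup_iff.1 h1
      exact ⟨x, (ENNReal.lt_div_iff_mul_lt (Or.inl ha0) (Or.inl hfa)).2 hx⟩)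
    (fun t ht => by
      have h1 : t * b < b := by
        calc t * b = b * t := mul_comm _ _
          _ < b * 1 := ENNReal.mul_lt_mul_right hb0 hgb ht
          _ = b := mul_one b
      obtain ⟨x, hx⟩ := lt_iSup_iff.1 h1
      exact ⟨x, (ENNReal.lt_div_iff_mul_lt (Or.inl hb0) (Or.inl hgb)).2 hx⟩)
    (fun x y => by
      have h1 : (h ((1 / 2 : ℝ) • (x + y)) / c) ^ 2
          = h ((1 / 2 : ℝ) • (x + y)) ^ 2 * (a⁻¹ * b⁻¹) := by
        rw [div_eq_mul_inv, mul_pow, ← ENNReal.inv_pow, hc2,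
          ENNReal.mul_inv (Or.inl ha0) (Or.inl hfa)]
      rw [h1, div_eq_mul_inv, div_eq_mul_inv, mul_mul_mul_comm]
      gcongr
      exact H x y)
  have amgm := ennreal_mul_le_sq_of_add_le core
  calc (∫⁻ x, f x) * (∫⁻ x, g x)
      = (a * b) * ((∫⁻ x, f x / a) * (∫⁻ x, g x / b)) := by rw [hF, hG]; ring
    _ ≤ (a * b) * (∫⁻ x, h x / c) ^ 2 := by gcongr
    _ = (∫⁻ x, h x) ^ 2 := by rw [hH, mul_pow, hc2]

/-- Truncations exhaust. -/
theorem iSup_min_natCast (a : ℝ≥0∞) : ⨆ i : ℕ, min a (i : ℝ≥0∞) = a := by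
  refine le_antisymm (iSup_le fun i => min_le_left _ _) ?_
  by_cases ha : a = ⊤
  · subst ha
    simp [ENNReal.iSup_natCast]
  · obtain ⟨n, hn⟩ := ENNReal.exists_nat_gt ha
    calc a = min a (n : ℝ≥0∞) := (min_eq_left hn.le).symm
      _ ≤ ⨆ i : ℕ, min a (i : ℝ≥0∞) := le_iSup (fun i : ℕ => min a (i : ℝ≥0∞)) n

theorem lintegral_eq_iSup_min {α : Type*} [MeasurableSpace α] (μ : Measure α) (f : α → ℝ≥0∞)
    (hf : Measurable f) : ∫⁻ x, f x ∂μ = ⨆ i : ℕ, ∫⁻ x, min (f x) (i : ℝ≥0∞) ∂μ := by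
  rw [← lintegral_iSup (fun i => hf.min measurable_const)
    (fun i j hij x => min_le_min le_rfl (Nat.cast_le.2 hij))]
  exact lintegral_congr (fun x => (iSup_min_natCast (f x)).symm)

/-- **Prékopa–Leindler inequality on `ℝ`** (midpoint form), for measurable `ℝ≥0∞`-valued
functions, with no integrability or boundedness assumption. -/
theorem prekopa_leindler_real (f g h : ℝ → ℝ≥0∞) (hf : Measurable f) (hg : Measurable g)
    (hh : Measurable h) (H : ∀ x y, f x * g y ≤ h ((1 / 2 : ℝ) • (x + y)) ^ 2) :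
    (∫⁻ x, f x) * (∫⁻ x, g x) ≤ (∫⁻ x, h x) ^ 2 := by
  have key : ∀ i j : ℕ, (∫⁻ x, min (f x) (i : ℝ≥0∞)) * (∫⁻ x, min (g x) (j : ℝ≥0∞))
      ≤ (∫⁻ x, h x) ^ 2 := fun i j =>
    pl_one_of_iSup _ _ h (hf.min measurable_const) (hg.min measurable_const) hh
      (ne_top_of_le_ne_top (ENNReal.natCast_ne_top i) (iSup_le fun x => min_le_right _ _))
      (ne_top_of_le_ne_top (ENNReal.natCast_ne_top j) (iSup_le fun x => min_le_right _ _))
      (fun x y => (mul_le_mul' (min_le_left _ _) (min_le_left _ _)).trans (H x y))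
  rw [lintegral_eq_iSup_min volume f hf, lintegral_eq_iSup_min volume g hg, ENNReal.iSup_mul]
  simp_rw [ENNReal.mul_iSup]
  exact iSup_le fun i => iSup_le fun j => key i j

end Crest.Agent.Helper77
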