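/-
helper77 — Prékopa–Leindler inequality (midpoint form) on `Fin n → ℝ` and on
`EuclideanSpace ℝ (Fin d)`.

Main results (namespace `Crest.Agent.Helper77`):
* `prekopa_leindler_pi`            : on `Fin n → ℝ`, `ℝ≥0∞`-valued measurable functions;
* `prekopa_leindler_lintegral`     : on `EuclideanSpace ℝ (Fin d)`, `ℝ≥0∞`-valued;
* `prekopa_leindler_setLIntegral`  : the same restricted to sets `A`, `B`, `C ⊇ (A + B)/2`;
* `prekopa_leindler_integral`      : real-valued Bochner-integral form;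
* `prekopa_leindler_setIntegral`   : real-valued, restricted to sets.

Proof: induction on the dimension (splitting off the first coordinate with
`MeasurableEquiv.piFinSuccAbove` and Tonelli), the one-dimensional case being
`prekopa_leindler_real` of `Crest.Agent.Helper77.PLOne`.
-/
import Crest.Agent.Helper77.PLOne

set_option autoImplicit false
open MeasureTheory Set
open scoped ENNReal Pointwise

namespace Crest.Agent.Helper77

theorem piFinSuccAbove_symm_midpoint (n : ℕ) (s₁ s₂ : ℝ) (x y : Fin n → ℝ) :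
    (1 / 2 : ℝ) • ((MeasurableEquiv.piFinSuccAbove (fun _ : Fin (n + 1) => ℝ) 0).symm (s₁, x)
      + (MeasurableEquiv.piFinSuccAbove (fun _ : Fin (n + 1) => ℝ) 0).symm (s₂, y))
    = (MeasurableEquiv.piFinSuccAbove (fun _ : Fin (n + 1) => ℝ) 0).symm
        ((1 / 2 : ℝ) • (s₁ + s₂), (1 / 2 : ℝ) • (x + y)) := by
  funext j
  refine Fin.cases ?_ (fun i => ?_) j
  · simp [MeasurableEquiv.piFinSuccAbove_symm_apply]
  · simp [MeasurableEquiv.piFinSuccAbove_symm_apply]
    ring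

/-- **Prékopa–Leindler inequality on `Fin n → ℝ`** (midpoint form). -/
theorem prekopa_leindler_pi : ∀ (n : ℕ) (f g h : (Fin n → ℝ) → ℝ≥0∞), Measurable f → Measurable g →
    Measurable h → (∀ x y, f x * g y ≤ h ((1 / 2 : ℝ) • (x + y)) ^ 2) →
    (∫⁻ x, f x) * (∫⁻ x, g x) ≤ (∫⁻ x, h x) ^ 2 := by
  intro n
  induction n with
  | zero =>
    intro f g h hf hg hh H
    have hu : ∀ φ : (Fin 0 → ℝ) → ℝ≥0∞,
        ∫⁻ x, φ x = φ 0 * volume (univ : Set (Fin 0 → ℝ)) := by
      intro φ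
      have : ∀ x : Fin 0 → ℝ, φ x = φ 0 := fun x => by rw [Subsingleton.elim x 0]
      rw [lintegral_congr this, lintegral_const]
    rw [hu f, hu g, hu h]
    have h1 := H 0 0
    have hd : (1 / 2 : ℝ) • ((0 : Fin 0 → ℝ) + 0) = 0 := Subsingleton.elim _ _
    rw [hd] at h1
    calc f 0 * volume (univ : Set (Fin 0 → ℝ)) * (g 0 * volume (univ : Set (Fin 0 → ℝ)))
        = (f 0 * g 0) * volume (univ : Set (Fin 0 → ℝ)) ^ 2 := by ring
      _ ≤ h 0 ^ 2 * volume (univ : Set (Fin 0 → ℝ)) ^ 2 := by gcongr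
      _ = (h 0 * volume (univ : Set (Fin 0 → ℝ))) ^ 2 := by ring
  | succ n ih =>
    intro f g h hf hg hh H
    set e := MeasurableEquiv.piFinSuccAbove (fun _ : Fin (n + 1) => ℝ) 0 with he_def
    have he : MeasurePreserving e volume volume :=
      volume_preserving_piFinSuccAbove (fun _ : Fin (n + 1) => ℝ) 0
    have key : ∀ φ : (Fin (n + 1) → ℝ) → ℝ≥0∞, Measurable φ →
        ∫⁻ x, φ x = ∫⁻ s : ℝ, ∫⁻ z : Fin n → ℝ, φ (e.symm (s, z)) := by
      intro φ hφ
      rw [← (he.symm e).lintegral_comp hφ, Measure.volume_eq_prod,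
        lintegral_prod (fun p => φ (e.symm p)) (hφ.comp e.symm.measurable).aemeasurable]
    have hmeas : ∀ φ : (Fin (n + 1) → ℝ) → ℝ≥0∞, Measurable φ →
        Measurable (fun s : ℝ => ∫⁻ z : Fin n → ℝ, φ (e.symm (s, z))) := by
      intro φ hφ
      exact (hφ.comp e.symm.measurable).lintegral_prod_right'
    have hslice : ∀ (φ : (Fin (n + 1) → ℝ) → ℝ≥0∞), Measurable φ → ∀ s : ℝ,
        Measurable (fun z : Fin n → ℝ => φ (e.symm (s, z))) := by
      intro φ hφ s
      exact hφ.comp (e.symm.measurable.comp measurable_prodMk_left)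
    rw [key f hf, key g hg, key h hh]
    refine prekopa_leindler_real _ _ _ (hmeas f hf) (hmeas g hg) (hmeas h hh) ?_
    intro s₁ s₂
    refine ih _ _ _ (hslice f hf s₁) (hslice g hg s₂) (hslice h hh _) ?_
    intro x y
    rw [← piFinSuccAbove_symm_midpoint]
    exact H _ _

/-- **Prékopa–Leindler inequality on `EuclideanSpace ℝ (Fin d)`** (midpoint form), for
measurable `ℝ≥0∞`-valued functions, with no integrability or boundedness assumption:
if `f x * g y ≤ h ((x + y)/2) ^ 2` for all `x y`, then `(∫⁻ f) * (∫⁻ g) ≤ (∫⁻ h) ^ 2`. -/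
theorem prekopa_leindler_lintegral (d : ℕ) (f g h : EuclideanSpace ℝ (Fin d) → ℝ≥0∞)
    (hf : Measurable f) (hg : Measurable g) (hh : Measurable h)
    (H : ∀ x y, f x * g y ≤ h ((1 / 2 : ℝ) • (x + y)) ^ 2) :
    (∫⁻ x, f x) * (∫⁻ x, g x) ≤ (∫⁻ x, h x) ^ 2 := by
  have hmp : MeasurePreserving (@WithLp.toLp 2 (Fin d → ℝ)) volume volume :=
    PiLp.volume_preserving_toLp (Fin d)
  have key : ∀ φ : EuclideanSpace ℝ (Fin d) → ℝ≥0∞, Measurable φ →
      ∫⁻ x, φ x = ∫⁻ z : Fin d → ℝ, φ (WithLp.toLp 2 z) :=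
    fun φ hφ => (hmp.lintegral_comp hφ).symm
  rw [key f hf, key g hg, key h hh]
  refine prekopa_leindler_pi d _ _ _ (hf.comp hmp.measurable) (hg.comp hmp.measurable)
    (hh.comp hmp.measurable) ?_
  intro x y
  have h1 : (1 / 2 : ℝ) • (WithLp.toLp 2 x + WithLp.toLp 2 y)
      = (WithLp.toLp 2 ((1 / 2 : ℝ) • (x + y)) : EuclideanSpace ℝ (Fin d)) := by
    simp
  rw [← h1]
  exact H _ _

/-- Prékopa–Leindler on `EuclideanSpace ℝ (Fin d)`, set-restricted `ℝ≥0∞` form: if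
`(A + B)/2 ⊆ C` and `f x * g y ≤ h ((x + y)/2) ^ 2` for `x ∈ A`, `y ∈ B`, then
`(∫⁻ x in A, f x) * (∫⁻ x in B, g x) ≤ (∫⁻ x in C, h x) ^ 2`. -/
theorem prekopa_leindler_setLIntegral (d : ℕ) (A B C : Set (EuclideanSpace ℝ (Fin d)))
    (hA : MeasurableSet A) (hB : MeasurableSet B) (hC : MeasurableSet C)
    (f g h : EuclideanSpace ℝ (Fin d) → ℝ≥0∞)
    (hf : Measurable f) (hg : Measurable g) (hh : Measurable h)
    (hABC : ∀ x ∈ A, ∀ y ∈ B, (1 / 2 : ℝ) • (x + y) ∈ C)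
    (H : ∀ x ∈ A, ∀ y ∈ B, f x * g y ≤ h ((1 / 2 : ℝ) • (x + y)) ^ 2) :
    (∫⁻ x in A, f x) * (∫⁻ x in B, g x) ≤ (∫⁻ x in C, h x) ^ 2 := by
  rw [← lintegral_indicator hA, ← lintegral_indicator hB, ← lintegral_indicator hC]
  refine prekopa_leindler_lintegral d _ _ _ (hf.indicator hA) (hg.indicator hB)
    (hh.indicator hC) ?_
  intro x y
  by_cases hx : x ∈ A
  · by_cases hy : y ∈ B
    · rw [indicator_of_mem hx, indicator_of_mem hy, indicator_of_mem (hABC x hx y hy)]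
      exact H x hx y hy
    · simp [indicator_of_notMem hy]
  · simp [indicator_of_notMem hx]

/-- **Prékopa–Leindler inequality on `EuclideanSpace ℝ (Fin d)`**, real-valued Bochner-integral
form: `f g h ≥ 0` measurable, `h` integrable, `f x * g y ≤ h ((x + y)/2) ^ 2` for all `x y`;
then `(∫ f) * (∫ g) ≤ (∫ h) ^ 2`. (`f`, `g` need not be assumed integrable.) -/
theorem prekopa_leindler_integral (d : ℕ) (f g h : EuclideanSpace ℝ (Fin d) → ℝ)
    (hf : Measurable f) (hg : Measurable g) (hh : Measurable h)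
    (hf0 : ∀ x, 0 ≤ f x) (hg0 : ∀ x, 0 ≤ g x) (hh0 : ∀ x, 0 ≤ h x) (hhi : Integrable h)
    (H : ∀ x y, f x * g y ≤ h ((1 / 2 : ℝ) • (x + y)) ^ 2) :
    (∫ x, f x) * (∫ x, g x) ≤ (∫ x, h x) ^ 2 := by
  have hL := prekopa_leindler_lintegral d (fun x => ENNReal.ofReal (f x))
    (fun x => ENNReal.ofReal (g x)) (fun x => ENNReal.ofReal (h x))
    hf.ennreal_ofReal hg.ennreal_ofReal hh.ennreal_ofReal (fun x y => by
      rw [← ENNReal.ofReal_mul (hf0 x), ← ENNReal.ofReal_pow (hh0 _)]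
      exact ENNReal.ofReal_le_ofReal (H x y))
  have hhfin : ∫⁻ x, ENNReal.ofReal (h x) ≠ ⊤ := hhi.lintegral_lt_top.ne
  rw [integral_eq_lintegral_of_nonneg_ae (Filter.Eventually.of_forall hf0)
      hf.aestronglyMeasurable,
    integral_eq_lintegral_of_nonneg_ae (Filter.Eventually.of_forall hg0)
      hg.aestronglyMeasurable,
    integral_eq_lintegral_of_nonneg_ae (Filter.Eventually.of_forall hh0)
      hh.aestronglyMeasurable,
    ← ENNReal.toReal_mul, ← ENNReal.toReal_pow]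
  exact ENNReal.toReal_mono (ENNReal.pow_ne_top hhfin) hL

/-- Prékopa–Leindler on `EuclideanSpace ℝ (Fin d)`, set-restricted real-valued form: if
`(A + B)/2 ⊆ C`, `f ≥ 0` on `A`, `g ≥ 0` on `B`, `h ≥ 0` on `C`, `h` integrable on `C` and
`f x * g y ≤ h ((x + y)/2) ^ 2` for `x ∈ A`, `y ∈ B`, then
`(∫ x in A, f x) * (∫ x in B, g x) ≤ (∫ x in C, h x) ^ 2`. -/
theorem prekopa_leindler_setIntegral (d : ℕ) (A B C : Set (EuclideanSpace ℝ (Fin d)))
    (hA : MeasurableSet A) (hB : MeasurableSet B) (hC : MeasurableSet C)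
    (f g h : EuclideanSpace ℝ (Fin d) → ℝ)
    (hf : Measurable f) (hg : Measurable g) (hh : Measurable h)
    (hf0 : ∀ x ∈ A, 0 ≤ f x) (hg0 : ∀ x ∈ B, 0 ≤ g x) (hh0 : ∀ x ∈ C, 0 ≤ h x)
    (hhi : IntegrableOn h C)
    (hABC : ∀ x ∈ A, ∀ y ∈ B, (1 / 2 : ℝ) • (x + y) ∈ C)
    (H : ∀ x ∈ A, ∀ y ∈ B, f x * g y ≤ h ((1 / 2 : ℝ) • (x + y)) ^ 2) :
    (∫ x in A, f x) * (∫ x in B, g x) ≤ (∫ x in C, h x) ^ 2 := by
  rw [← integral_indicator hA, ← integral_indicator hB, ← integral_indicator hC]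
  refine prekopa_leindler_integral d _ _ _ (hf.indicator hA) (hg.indicator hB)
    (hh.indicator hC) (fun x => indicator_nonneg hf0 x) (fun x => indicator_nonneg hg0 x)
    (fun x => indicator_nonneg hh0 x) (hhi.integrable_indicator hC) ?_
  intro x y
  by_cases hx : x ∈ A
  · by_cases hy : y ∈ B
    · rw [indicator_of_mem hx, indicator_of_mem hy, indicator_of_mem (hABC x hx y hy)]
      exact H x hx y hy
    · rw [indicator_of_notMem hy, mul_zero]
      exact sq_nonneg _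
  · rw [indicator_of_notMem hx, zero_mul]
    exact sq_nonneg _

end Crest.Agent.Helper77
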