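/-
helper77 — key lemma (S) = (B3) for row 82 (S0109): measure-theoretic layer.

`key_S`: for a measurable `K ⊆ closedBall 0 R` in `EuclideanSpace ℝ (Fin d)` and three finite
families `A`, `B`, `C` of measurable subsets of `K` with `A`, `B` a.e.-partitions of `K`,
`C` pairwise a.e.-disjoint and midpoint inclusion `(A i + B i)/2 ⊆ C i`:
`∑ ‖∫_{B i} x - ∫_{A i} x‖² / (|A i| + |B i|) ≤ 600 R² ∑ (|B i| - |A i|)² / (|A i| + |B i|)`.

Proof: Prékopa–Leindler (`Crest.Agent.Helper77.PL`) on each cell with the concave quadratic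
weights `64R² - κ₀‖x + v‖²`, `64R² - κ₁‖y - v‖²`, `64R² - ‖z‖²`
(`(2κ₀-1)(2κ₁-1) ≥ 1`), then the algebra of `Crest.Agent.Helper77.KeySAlg.key_sum`.
-/
import Crest.Agent.Helper77.PL
import Crest.Agent.Helper77.KeySAlg

set_option autoImplicit false
open MeasureTheory Set
open scoped ENNReal InnerProductSpace

namespace Crest.Agent.Helper77

variable {d : ℕ}

theorem volume_lt_top_of_subset_closedBall {S : Set (EuclideanSpace ℝ (Fin d))} {R : ℝ}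
    (hS : S ⊆ Metric.closedBall 0 R) : volume S < ⊤ :=
  (measure_mono hS).trans_lt (isCompact_closedBall (0 : EuclideanSpace ℝ (Fin d)) R).measure_lt_top

theorem integrableOn_of_continuous_of_subset_closedBall {S : Set (EuclideanSpace ℝ (Fin d))}
    {R : ℝ} (hS : S ⊆ Metric.closedBall 0 R) {F : Type*} [NormedAddCommGroup F]
    {f : EuclideanSpace ℝ (Fin d) → F} (hf : Continuous f) : IntegrableOn f S :=
  (hf.continuousOn.integrableOn_compact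
    (isCompact_closedBall (0 : EuclideanSpace ℝ (Fin d)) R)).mono_set hS

/-- Expansion of the integral of a quadratic weight over a bounded set in terms of the volume,
the first moment and the second moment of the set. -/
theorem setIntegral_weight {S : Set (EuclideanSpace ℝ (Fin d))} {R : ℝ}
    (hS : S ⊆ Metric.closedBall 0 R) (Λ κ : ℝ) (v : EuclideanSpace ℝ (Fin d)) :
    ∫ x in S, (Λ - κ * ‖x + v‖ ^ 2)
      = Λ * volume.real S - κ * ((∫ x in S, ‖x‖ ^ 2) + 2 * ⟪v, ∫ x in S, x⟫_ℝ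
          + ‖v‖ ^ 2 * volume.real S) := by
  have hfin : volume S ≠ ⊤ := (volume_lt_top_of_subset_closedBall hS).ne
  have I0 : IntegrableOn (fun x : EuclideanSpace ℝ (Fin d) => x) S :=
    integrableOn_of_continuous_of_subset_closedBall hS continuous_id
  have I1 : IntegrableOn (fun x : EuclideanSpace ℝ (Fin d) => ‖x‖ ^ 2) S :=
    integrableOn_of_continuous_of_subset_closedBall hS (by fun_prop)
  have I2 : IntegrableOn (fun x : EuclideanSpace ℝ (Fin d) => 2 * ⟪v, x⟫_ℝ) S :=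
    integrableOn_of_continuous_of_subset_closedBall hS (by fun_prop)
  have I3 : ∀ c : ℝ, IntegrableOn (fun _ : EuclideanSpace ℝ (Fin d) => c) S :=
    fun _ => integrableOn_const hfin
  have h1 : ∀ x : EuclideanSpace ℝ (Fin d),
      Λ - κ * ‖x + v‖ ^ 2 = Λ - κ * (‖x‖ ^ 2 + 2 * ⟪v, x⟫_ℝ + ‖v‖ ^ 2) := by
    intro x
    rw [norm_add_sq_real, real_inner_comm]
  simp_rw [h1]
  have J12 : IntegrableOn (fun x : EuclideanSpace ℝ (Fin d) => ‖x‖ ^ 2 + 2 * ⟪v, x⟫_ℝ) S :=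
    integrableOn_of_continuous_of_subset_closedBall hS (by fun_prop)
  have J : IntegrableOn
      (fun x : EuclideanSpace ℝ (Fin d) => ‖x‖ ^ 2 + 2 * ⟪v, x⟫_ℝ + ‖v‖ ^ 2) S :=
    integrableOn_of_continuous_of_subset_closedBall hS (by fun_prop)
  have e1 : ∫ x in S, (Λ - κ * (‖x‖ ^ 2 + 2 * ⟪v, x⟫_ℝ + ‖v‖ ^ 2))
      = (∫ _x in S, Λ) - ∫ x in S, κ * (‖x‖ ^ 2 + 2 * ⟪v, x⟫_ℝ + ‖v‖ ^ 2) :=
    integral_sub (I3 Λ) (J.const_mul κ)
  have e2 : ∫ x in S, κ * (‖x‖ ^ 2 + 2 * ⟪v, x⟫_ℝ + ‖v‖ ^ 2)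
      = κ * ∫ x in S, (‖x‖ ^ 2 + 2 * ⟪v, x⟫_ℝ + ‖v‖ ^ 2) := integral_const_mul κ _
  have e3 : ∫ x in S, (‖x‖ ^ 2 + 2 * ⟪v, x⟫_ℝ + ‖v‖ ^ 2)
      = (∫ x in S, (‖x‖ ^ 2 + 2 * ⟪v, x⟫_ℝ)) + ∫ _x in S, ‖v‖ ^ 2 :=
    integral_add J12 (I3 _)
  have e4 : ∫ x in S, (‖x‖ ^ 2 + 2 * ⟪v, x⟫_ℝ)
      = (∫ x in S, ‖x‖ ^ 2) + ∫ x in S, 2 * ⟪v, x⟫_ℝ := integral_add I1 I2
  have e5 : ∫ x in S, 2 * ⟪v, x⟫_ℝ = 2 * ∫ x in S, ⟪v, x⟫_ℝ := integral_const_mul 2 _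
  have e6 : ∫ x in S, ⟪v, x⟫_ℝ = ⟪v, ∫ x in S, x⟫_ℝ := integral_inner I0 v
  have e7 : ∀ c : ℝ, ∫ _x in S, c = volume.real S * c := fun c => by
    rw [setIntegral_const, smul_eq_mul]
  rw [e1, e2, e3, e4, e5, e6, e7, e7]
  ring

theorem norm_setIntegral_id_le {S : Set (EuclideanSpace ℝ (Fin d))} {R : ℝ}
    (hS : S ⊆ Metric.closedBall 0 R) :
    ‖∫ x in S, x‖ ≤ R * volume.real S :=
  norm_setIntegral_le_of_norm_le_const (volume_lt_top_of_subset_closedBall hS)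
    (fun _ hx => by simpa using hS hx)

theorem setIntegral_normSq_nonneg (S : Set (EuclideanSpace ℝ (Fin d))) :
    0 ≤ ∫ x in S, ‖x‖ ^ 2 :=
  integral_nonneg (fun _ => sq_nonneg _)

theorem setIntegral_normSq_le {S : Set (EuclideanSpace ℝ (Fin d))} {R : ℝ}
    (hSm : MeasurableSet S) (hS : S ⊆ Metric.closedBall 0 R) :
    ∫ x in S, ‖x‖ ^ 2 ≤ R ^ 2 * volume.real S := by
  have hfin : volume S ≠ ⊤ := (volume_lt_top_of_subset_closedBall hS).ne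
  have I1 : IntegrableOn (fun x : EuclideanSpace ℝ (Fin d) => ‖x‖ ^ 2) S :=
    integrableOn_of_continuous_of_subset_closedBall hS (by fun_prop)
  have h := setIntegral_mono_on I1 (integrableOn_const hfin (C := R ^ 2)) hSm (fun x hx => by
    have : ‖x‖ ≤ R := by simpa using hS hx
    exact pow_le_pow_left₀ (norm_nonneg _) this 2)
  rw [setIntegral_const, smul_eq_mul] at h
  linarith

theorem add_sq_le_weighted {a b κ₀ κ₁ : ℝ} (h0 : 1 / 2 < κ₀)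
    (h : 1 ≤ (2 * κ₀ - 1) * (2 * κ₁ - 1)) :
    (a + b) ^ 2 ≤ 2 * κ₀ * a ^ 2 + 2 * κ₁ * b ^ 2 := by
  have hα : 0 < 2 * κ₀ - 1 := by linarith
  have key : 0 ≤ (2 * κ₀ - 1) * (2 * κ₀ * a ^ 2 + 2 * κ₁ * b ^ 2 - (a + b) ^ 2) := by
    have e : (2 * κ₀ - 1) * (2 * κ₀ * a ^ 2 + 2 * κ₁ * b ^ 2 - (a + b) ^ 2)
        = ((2 * κ₀ - 1) * a - b) ^ 2 + ((2 * κ₀ - 1) * (2 * κ₁ - 1) - 1) * b ^ 2 := by ring
    rw [e]
    exact add_nonneg (sq_nonneg _) (mul_nonneg (by linarith) (sq_nonneg _))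
  have h2 := (mul_nonneg_iff_of_pos_left hα).1 key
  linarith

theorem midpoint_normSq_le (u w : EuclideanSpace ℝ (Fin d)) {κ₀ κ₁ : ℝ} (h0 : 1 / 2 < κ₀)
    (h : 1 ≤ (2 * κ₀ - 1) * (2 * κ₁ - 1)) :
    ‖(1 / 2 : ℝ) • (u + w)‖ ^ 2 ≤ (κ₀ * ‖u‖ ^ 2 + κ₁ * ‖w‖ ^ 2) / 2 := by
  have h1 : ‖(1 / 2 : ℝ) • (u + w)‖ = (1 / 2) * ‖u + w‖ := by
    rw [norm_smul]; norm_num
  have h3 : ‖u + w‖ ^ 2 ≤ (‖u‖ + ‖w‖) ^ 2 :=
    pow_le_pow_left₀ (norm_nonneg _) (norm_add_le u w) 2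
  have h4 := add_sq_le_weighted (a := ‖u‖) (b := ‖w‖) h0 h
  rw [h1, mul_pow]
  linarith

theorem weight_nonneg {x v : EuclideanSpace ℝ (Fin d)} {R κ : ℝ} (hx : ‖x‖ ≤ R)
    (hv : ‖v‖ ≤ R / 2) (hκ : κ ≤ 2) : 0 ≤ 64 * R ^ 2 - κ * ‖x + v‖ ^ 2 := by
  have h1 : ‖x + v‖ ≤ 3 * R / 2 := (norm_add_le x v).trans (by linarith)
  have h2 : ‖x + v‖ ^ 2 ≤ (3 * R / 2) ^ 2 := pow_le_pow_left₀ (norm_nonneg _) h1 2
  have h3 : κ * ‖x + v‖ ^ 2 ≤ 2 * ‖x + v‖ ^ 2 := mul_le_mul_of_nonneg_right hκ (sq_nonneg _)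
  have h4 : (3 * R / 2) ^ 2 = 9 / 4 * R ^ 2 := by ring
  have h5 : 0 ≤ R ^ 2 := sq_nonneg R
  linarith

/-- Prékopa–Leindler on one cell with quadratic weights, in terms of volumes and moments. -/
theorem cell_PL {A B C : Set (EuclideanSpace ℝ (Fin d))} {R : ℝ} (hR : 0 < R)
    (hA : MeasurableSet A) (hB : MeasurableSet B) (hC : MeasurableSet C)
    (hAR : A ⊆ Metric.closedBall 0 R) (hBR : B ⊆ Metric.closedBall 0 R)
    (hCR : C ⊆ Metric.closedBall 0 R)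
    (hmid : ∀ x ∈ A, ∀ y ∈ B, (1 / 2 : ℝ) • (x + y) ∈ C)
    (κ₀ κ₁ : ℝ) (v : EuclideanSpace ℝ (Fin d)) (h0 : 1 / 2 < κ₀) (h0' : κ₀ ≤ 2) (h1' : κ₁ ≤ 2)
    (hκ : 1 ≤ (2 * κ₀ - 1) * (2 * κ₁ - 1)) (hv : ‖v‖ ≤ R / 2) :
    (64 * R ^ 2 * volume.real A
        - κ₀ * ((∫ x in A, ‖x‖ ^ 2) + 2 * ⟪v, ∫ x in A, x⟫_ℝ + ‖v‖ ^ 2 * volume.real A))
      * (64 * R ^ 2 * volume.real B
        - κ₁ * ((∫ x in B, ‖x‖ ^ 2) - 2 * ⟪v, ∫ x in B, x⟫_ℝ + ‖v‖ ^ 2 * volume.real B))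
      ≤ (64 * R ^ 2 * volume.real C - ∫ x in C, ‖x‖ ^ 2) ^ 2 := by
  have hnv : ‖-v‖ ≤ R / 2 := by rwa [norm_neg]
  have h0v : ‖(0 : EuclideanSpace ℝ (Fin d))‖ ≤ R / 2 := by rw [norm_zero]; linarith
  have key := prekopa_leindler_setIntegral d A B C hA hB hC
    (fun x => 64 * R ^ 2 - κ₀ * ‖x + v‖ ^ 2) (fun y => 64 * R ^ 2 - κ₁ * ‖y + -v‖ ^ 2)
    (fun z => 64 * R ^ 2 - 1 * ‖z + 0‖ ^ 2)
    (Continuous.measurable (by fun_prop)) (Continuous.measurable (by fun_prop))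
    (Continuous.measurable (by fun_prop))
    (fun x hx => weight_nonneg (by simpa using hAR hx) hv h0')
    (fun y hy => weight_nonneg (by simpa using hBR hy) hnv h1')
    (fun z hz => weight_nonneg (by simpa using hCR hz) h0v (by norm_num))
    (integrableOn_of_continuous_of_subset_closedBall hCR (by fun_prop)) hmid
    (fun x hx y hy => by
      have ha : 0 ≤ 64 * R ^ 2 - κ₀ * ‖x + v‖ ^ 2 :=
        weight_nonneg (by simpa using hAR hx) hv h0'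
      have hb : 0 ≤ 64 * R ^ 2 - κ₁ * ‖y + -v‖ ^ 2 :=
        weight_nonneg (by simpa using hBR hy) hnv h1'
      have hm := midpoint_normSq_le (x + v) (y + -v) h0 hκ
      have e : x + v + (y + -v) = x + y := by abel
      rw [e] at hm
      have hc : ((64 * R ^ 2 - κ₀ * ‖x + v‖ ^ 2) + (64 * R ^ 2 - κ₁ * ‖y + -v‖ ^ 2)) / 2
          ≤ 64 * R ^ 2 - 1 * ‖(1 / 2 : ℝ) • (x + y) + 0‖ ^ 2 := by
        rw [add_zero, one_mul]; linarith
      have hsq := pow_le_pow_left₀ (by linarith) hc 2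
      nlinarith [sq_nonneg ((64 * R ^ 2 - κ₀ * ‖x + v‖ ^ 2) - (64 * R ^ 2 - κ₁ * ‖y + -v‖ ^ 2))])
  rw [setIntegral_weight hAR, setIntegral_weight hBR, setIntegral_weight hCR] at key
  have eB : 64 * R ^ 2 * volume.real B - κ₁ * ((∫ x in B, ‖x‖ ^ 2)
        + 2 * ⟪-v, ∫ x in B, x⟫_ℝ + ‖-v‖ ^ 2 * volume.real B)
      = 64 * R ^ 2 * volume.real B - κ₁ * ((∫ x in B, ‖x‖ ^ 2)
        - 2 * ⟪v, ∫ x in B, x⟫_ℝ + ‖v‖ ^ 2 * volume.real B) := by
    rw [inner_neg_left, norm_neg]; ring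
  have eC : 64 * R ^ 2 * volume.real C - 1 * ((∫ x in C, ‖x‖ ^ 2)
        + 2 * ⟪(0 : EuclideanSpace ℝ (Fin d)), ∫ x in C, x⟫_ℝ
        + ‖(0 : EuclideanSpace ℝ (Fin d))‖ ^ 2 * volume.real C)
      = 64 * R ^ 2 * volume.real C - ∫ x in C, ‖x‖ ^ 2 := by
    rw [inner_zero_left, norm_zero]; ring
  rw [eB, eC] at key
  exact key

theorem sum_setIntegral_eq_of_ae_partition {ι : Type*} [Fintype ι]
    {K : Set (EuclideanSpace ℝ (Fin d))} {A : ι → Set (EuclideanSpace ℝ (Fin d))}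
    (hA : ∀ i, MeasurableSet (A i)) (hAK : ∀ i, A i ⊆ K)
    (hAd : ∀ i j, i ≠ j → volume (A i ∩ A j) = 0) (hAc : volume (K \ ⋃ i, A i) = 0)
    {f : EuclideanSpace ℝ (Fin d) → ℝ} (hf : IntegrableOn f K) :
    ∑ i, ∫ x in A i, f x = ∫ x in K, f x := by
  have hU : ⋃ i, A i ⊆ K := iUnion_subset hAK
  have h1 : ∫ x in ⋃ i, A i, f x = ∑ i, ∫ x in A i, f x := by
    rw [integral_iUnion_ae (fun i => (hA i).nullMeasurableSet) (fun i j hij => hAd i j hij)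
      (hf.mono_set hU), tsum_fintype]
  have h2 : ∫ x in ⋃ i, A i, f x = ∫ x in K, f x :=
    setIntegral_congr_set (ae_eq_set.2 ⟨by rw [Set.sdiff_eq_empty.2 hU, measure_empty], hAc⟩)
  rw [← h1, h2]

theorem sum_setIntegral_le_of_ae_disjoint {ι : Type*} [Fintype ι]
    {K : Set (EuclideanSpace ℝ (Fin d))} (hKm : MeasurableSet K)
    {C : ι → Set (EuclideanSpace ℝ (Fin d))}
    (hC : ∀ i, MeasurableSet (C i)) (hCK : ∀ i, C i ⊆ K)
    (hCd : ∀ i j, i ≠ j → volume (C i ∩ C j) = 0)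
    {f : EuclideanSpace ℝ (Fin d) → ℝ} (hf : IntegrableOn f K) (hf0 : ∀ x ∈ K, 0 ≤ f x) :
    ∑ i, ∫ x in C i, f x ≤ ∫ x in K, f x := by
  have hU : ⋃ i, C i ⊆ K := iUnion_subset hCK
  have h1 : ∫ x in ⋃ i, C i, f x = ∑ i, ∫ x in C i, f x := by
    rw [integral_iUnion_ae (fun i => (hC i).nullMeasurableSet) (fun i j hij => hCd i j hij)
      (hf.mono_set hU), tsum_fintype]
  rw [← h1]
  exact setIntegral_mono_set hf ((ae_restrict_iff' hKm).2 (Filter.Eventually.of_forall hf0))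
    (LE.le.eventuallyLE hU)

/-- **Key lemma (S) = (B3), abstract form.**  Let `K ⊆ closedBall 0 R` be measurable and let
`A`, `B`, `C` be three finite families of measurable subsets of `K` such that `A` and `B` are
a.e.-partitions of `K`, the `C i` are pairwise a.e.-disjoint, and `(A i + B i)/2 ⊆ C i`.
Then the first moments `∫ x in ·, x` of the cells are `L²`-Lipschitz in the masses:
`∑ ‖m(B i) - m(A i)‖² / (|A i| + |B i|) ≤ 600 R² ∑ (|B i| - |A i|)² / (|A i| + |B i|)`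
(real division, so null cells contribute `0`). -/
theorem key_S {ι : Type*} [Fintype ι] {R : ℝ} (hR : 0 < R)
    (K : Set (EuclideanSpace ℝ (Fin d))) (hKm : MeasurableSet K)
    (hKR : K ⊆ Metric.closedBall 0 R)
    (A B C : ι → Set (EuclideanSpace ℝ (Fin d)))
    (hA : ∀ i, MeasurableSet (A i)) (hB : ∀ i, MeasurableSet (B i))
    (hC : ∀ i, MeasurableSet (C i))
    (hAK : ∀ i, A i ⊆ K) (hBK : ∀ i, B i ⊆ K) (hCK : ∀ i, C i ⊆ K)
    (hAd : ∀ i j, i ≠ j → volume (A i ∩ A j) = 0)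
    (hBd : ∀ i j, i ≠ j → volume (B i ∩ B j) = 0)
    (hCd : ∀ i j, i ≠ j → volume (C i ∩ C j) = 0)
    (hAc : volume (K \ ⋃ i, A i) = 0) (hBc : volume (K \ ⋃ i, B i) = 0)
    (hmid : ∀ i, ∀ x ∈ A i, ∀ y ∈ B i, (1 / 2 : ℝ) • (x + y) ∈ C i) :
    ∑ i, ‖(∫ x in B i, x) - ∫ x in A i, x‖ ^ 2 / (volume.real (A i) + volume.real (B i))
      ≤ 600 * R ^ 2 * ∑ i, (volume.real (B i) - volume.real (A i)) ^ 2
          / (volume.real (A i) + volume.real (B i)) := by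
  have hAR : ∀ i, A i ⊆ Metric.closedBall 0 R := fun i => (hAK i).trans hKR
  have hBR : ∀ i, B i ⊆ Metric.closedBall 0 R := fun i => (hBK i).trans hKR
  have hCR : ∀ i, C i ⊆ Metric.closedBall 0 R := fun i => (hCK i).trans hKR
  -- the weight `64 R² - ‖z‖²`
  have hw : ∀ S : Set (EuclideanSpace ℝ (Fin d)), S ⊆ Metric.closedBall 0 R →
      ∫ z in S, (64 * R ^ 2 - 1 * ‖z + 0‖ ^ 2)
        = 64 * R ^ 2 * volume.real S - ∫ z in S, ‖z‖ ^ 2 := by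
    intro S hS
    rw [setIntegral_weight hS, inner_zero_left, norm_zero]; ring
  have hwK : IntegrableOn (fun z : EuclideanSpace ℝ (Fin d) => 64 * R ^ 2 - 1 * ‖z + 0‖ ^ 2) K :=
    integrableOn_of_continuous_of_subset_closedBall hKR (by fun_prop)
  have hw0 : ∀ z ∈ K, 0 ≤ 64 * R ^ 2 - 1 * ‖z + 0‖ ^ 2 := fun z hz =>
    weight_nonneg (by simpa using hKR hz) (by rw [norm_zero]; linarith) (by norm_num)
  have hH : ∀ i, 0 ≤ 64 * R ^ 2 * volume.real (C i) - ∫ z in C i, ‖z‖ ^ 2 := by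
    intro i
    rw [← hw (C i) (hCR i)]
    exact setIntegral_nonneg (hC i) (fun z hz => hw0 z (hCK i hz))
  refine key_sum hR (fun i => volume.real (A i)) (fun i => volume.real (B i))
    (fun i => ∫ x in A i, ‖x‖ ^ 2) (fun i => ∫ x in B i, ‖x‖ ^ 2)
    (fun i => 64 * R ^ 2 * volume.real (C i) - ∫ z in C i, ‖z‖ ^ 2)
    (fun i => ∫ x in A i, x) (fun i => ∫ x in B i, x)
    (fun i => measureReal_nonneg) (fun i => measureReal_nonneg)
    (fun i => setIntegral_normSq_nonneg _) (fun i => setIntegral_normSq_nonneg _)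
    (fun i => setIntegral_normSq_le (hA i) (hAR i)) (fun i => setIntegral_normSq_le (hB i) (hBR i))
    (fun i => norm_setIntegral_id_le (hAR i)) (fun i => norm_setIntegral_id_le (hBR i)) hH ?_ ?_ ?_
  · -- second-moment family
    intro i τ hτ
    have hτ1 : -(1 / 8) ≤ τ := (abs_le.1 hτ).1
    have hτ2 : τ ≤ 1 / 8 := (abs_le.1 hτ).2
    have hτsq : τ ^ 2 ≤ 1 / 64 := by
      have h1 : τ ^ 2 ≤ (1 / 8 : ℝ) ^ 2 := sq_le_sq' (by linarith) hτ2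
      norm_num at h1
      linarith
    have hκ : 1 ≤ (2 * (1 + τ) - 1) * (2 * (1 - τ + 4 * τ ^ 2) - 1) := by
      have e : (2 * (1 + τ) - 1) * (2 * (1 - τ + 4 * τ ^ 2) - 1)
          = 1 + 4 * τ ^ 2 * (1 + 4 * τ) := by ring
      rw [e]
      have : 0 ≤ 4 * τ ^ 2 * (1 + 4 * τ) := mul_nonneg (by positivity) (by linarith)
      linarith
    have h := cell_PL hR (hA i) (hB i) (hC i) (hAR i) (hBR i) (hCR i) (hmid i)
      (1 + τ) (1 - τ + 4 * τ ^ 2) 0 (by linarith) (by linarith) (by linarith) hκ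
      (by rw [norm_zero]; linarith)
    simp only [inner_zero_left, norm_zero, mul_zero, add_zero, sub_zero, ne_eq,
      OfNat.ofNat_ne_zero, not_false_eq_true, zero_pow, zero_mul] at h
    exact h
  · -- first-moment family
    intro i v hv
    have h := cell_PL hR (hA i) (hB i) (hC i) (hAR i) (hBR i) (hCR i) (hmid i)
      1 1 v (by norm_num) (by norm_num) (by norm_num) (by norm_num) hv
    simp only [one_mul] at h
    exact h
  · -- total defect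
    have hAsum := sum_setIntegral_eq_of_ae_partition hA hAK hAd hAc hwK
    have hBsum := sum_setIntegral_eq_of_ae_partition hB hBK hBd hBc hwK
    have hCsum := sum_setIntegral_le_of_ae_disjoint hKm hC hCK hCd hwK hw0
    have e : ∑ i, (64 * R ^ 2 * (volume.real (A i) + volume.real (B i))
          - ((∫ x in A i, ‖x‖ ^ 2) + ∫ x in B i, ‖x‖ ^ 2)
          - 2 * (64 * R ^ 2 * volume.real (C i) - ∫ z in C i, ‖z‖ ^ 2))
        = (∑ i, ∫ z in A i, (64 * R ^ 2 - 1 * ‖z + 0‖ ^ 2))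
          + (∑ i, ∫ z in B i, (64 * R ^ 2 - 1 * ‖z + 0‖ ^ 2))
          - 2 * ∑ i, ∫ z in C i, (64 * R ^ 2 - 1 * ‖z + 0‖ ^ 2) := by
      rw [Finset.mul_sum, ← Finset.sum_add_distrib, ← Finset.sum_sub_distrib]
      refine Finset.sum_congr rfl (fun i _ => ?_)
      rw [hw (A i) (hAR i), hw (B i) (hBR i), hw (C i) (hCR i)]
      ring
    rw [e, hAsum, hBsum]
    linarith

end Crest.Agent.Helper77
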