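import Mathlib
import Crest.Agent.Helper77.Frac
import Crest.Agent.Helper77.CompList
import Crest.Agent.Helper77.RatTopC

/-!
# Primitive recursive rational arithmetic from a primitive recursive num/den/`mkRat` core

`RatCoreP` packages the three facts about the coding of `ℚ` that are needed
(`q ↦ q.num`, `q ↦ q.den`, `(z, d) ↦ mkRat z d` are primitive recursive).  From them all of
rational arithmetic is primitive recursive; the proofs go through the fraction-level functions of
`Crest.Agent.Helper77.Frac` and do not look at the coding of `ℚ` at all.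
(Same development as `RatTopC`, in the `Primrec` world; `RatCoreP.toC` converts.)
-/

namespace Crest.Agent.Helper77

/-- The three coding-dependent facts about `ℚ`, in `Primrec` form. -/
structure RatCoreP : Prop where
  num : Primrec (fun q : ℚ => q.num)
  den : Primrec (fun q : ℚ => q.den)
  frac : Primrec₂ (fun (z : ℤ) (d : ℕ) => mkRat z d)

/-- Alternative constructor: numerator/denominator pair and `(z, d) ↦ z / d`. -/
theorem RatCoreP.of_pair_div (h1 : Primrec (fun q : ℚ => (q.num, q.den)))
    (h2 : Primrec (fun p : ℤ × ℕ => (p.1 : ℚ) / (p.2 : ℚ))) : RatCoreP where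
  num := Primrec.fst.comp h1
  den := Primrec.snd.comp h1
  frac := h2.of_eq fun p => (Rat.mkRat_eq_div p.1 p.2).symm

namespace RatCoreP

variable (c : RatCoreP)
include c

theorem nd : Primrec Helper77.nd := Primrec.pair c.num c.den

theorem val : Primrec Helper77.val := c.frac.comp Primrec.fst Primrec.snd

theorem lift₁ {f : ℤ × ℕ → ℤ × ℕ} (hf : Primrec f) {F : ℚ → ℚ}
    (h : ∀ a, Helper77.val (f (Helper77.nd a)) = F a) : Primrec F :=
  (c.val.comp (hf.comp c.nd)).of_eq h

theorem lift₂ {f : ℤ × ℕ → ℤ × ℕ → ℤ × ℕ} (hf : Primrec₂ f) {F : ℚ → ℚ → ℚ}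
    (h : ∀ a b, Helper77.val (f (Helper77.nd a) (Helper77.nd b)) = F a b) : Primrec₂ F :=
  (c.val.comp (hf.comp (c.nd.comp Primrec.fst) (c.nd.comp Primrec.snd))).of_eq
    fun p => h p.1 p.2

theorem rat_add : Primrec₂ (fun a b : ℚ => a + b) :=
  c.lift₂ primrec_fracAdd fun a b => by
    rw [val_fracAdd (nd_snd_ne a) (nd_snd_ne b), val_nd, val_nd]

theorem rat_neg : Primrec (fun a : ℚ => -a) :=
  c.lift₁ primrec_fracNeg fun a => by rw [val_fracNeg, val_nd]

theorem rat_sub : Primrec₂ (fun a b : ℚ => a - b) :=
  c.lift₂ primrec_fracSub fun a b => by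
    rw [val_fracSub (nd_snd_ne a) (nd_snd_ne b), val_nd, val_nd]

theorem rat_mul : Primrec₂ (fun a b : ℚ => a * b) :=
  c.lift₂ primrec_fracMul fun a b => by rw [val_fracMul, val_nd, val_nd]

theorem rat_inv : Primrec (fun a : ℚ => a⁻¹) :=
  c.lift₁ primrec_fracInv fun a => by rw [val_fracInv, val_nd]

theorem rat_div : Primrec₂ (fun a b : ℚ => a / b) :=
  c.lift₂ primrec_fracDiv fun a b => by rw [val_fracDiv, val_nd, val_nd]

theorem rat_abs : Primrec (fun a : ℚ => |a|) :=
  c.lift₁ primrec_fracAbs fun a => by rw [val_fracAbs, val_nd]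

theorem rat_max : Primrec₂ (fun a b : ℚ => max a b) :=
  c.lift₂ primrec_fracMax fun a b => by
    rw [val_fracMax (nd_snd_pos a) (nd_snd_pos b), val_nd, val_nd]

theorem rat_min : Primrec₂ (fun a b : ℚ => min a b) :=
  c.lift₂ primrec_fracMin fun a b => by
    rw [val_fracMin (nd_snd_pos a) (nd_snd_pos b), val_nd, val_nd]

theorem rat_intCast : Primrec (fun z : ℤ => (z : ℚ)) :=
  (c.frac.comp Primrec.id (Primrec.const 1)).of_eq fun z => by
    rw [Rat.mkRat_eq_div]; simp

theorem rat_natCast : Primrec (fun n : ℕ => (n : ℚ)) :=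
  (c.rat_intCast.comp primrec_int_ofNat).of_eq fun n => by simp

theorem rat_pow : Primrec₂ (fun (a : ℚ) (n : ℕ) => a ^ n) :=
  (c.val.comp (primrec_fracPow.comp (c.nd.comp Primrec.fst) Primrec.snd)).of_eq
    fun p => by rw [val_fracPow, val_nd]

theorem rat_le : Primrec₂ (fun a b : ℚ => decide (a ≤ b)) :=
  (primrecRel_fracLe.decide.comp
    (c.nd.comp Primrec.fst) (c.nd.comp Primrec.snd)).of_eq fun p => by
      refine decide_eq_decide.2 ?_
      rw [fracLe_iff (nd_snd_pos p.1) (nd_snd_pos p.2), val_nd, val_nd]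

theorem rat_lt : Primrec₂ (fun a b : ℚ => decide (a < b)) :=
  (primrecRel_fracLt.decide.comp
    (c.nd.comp Primrec.fst) (c.nd.comp Primrec.snd)).of_eq fun p => by
      refine decide_eq_decide.2 ?_
      rw [fracLt_iff (nd_snd_pos p.1) (nd_snd_pos p.2), val_nd, val_nd]

theorem rat_natCeil : Primrec (fun a : ℚ => ⌈a⌉₊) :=
  (primrec_fracCeil.comp c.nd).of_eq fun a => by
    rw [fracCeil_eq (nd_snd_pos a), val_nd]

theorem rat_natFloor : Primrec (fun a : ℚ => ⌊a⌋₊) :=
  (primrec_fracFloor.comp c.nd).of_eq fun a => by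
    rw [fracFloor_eq, val_nd]

/-- Finite sums `∑ i < n, f a i` of a computable family are computable (jointly in `a`, `n`). -/
theorem rat_sum_range {α : Type*} [Primcodable α] {f : α → ℕ → ℚ} (hf : Primrec₂ f) :
    Primrec₂ (fun a n => ∑ i ∈ Finset.range n, f a i) := by
  have h : Primrec (fun p : α × ℕ =>
      Nat.rec (motive := fun _ => ℚ) (0 : ℚ) (fun i IH => IH + f p.1 i) p.2) :=
    Primrec.nat_rec' (f := fun p : α × ℕ => p.2) (g := fun _ => (0 : ℚ))
      (h := fun (p : α × ℕ) (x : ℕ × ℚ) => x.2 + f p.1 x.1)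
      Primrec.snd (Primrec.const 0)
      (c.rat_add.comp (Primrec.snd.comp Primrec.snd)
        (hf.comp (Primrec.fst.comp Primrec.fst) (Primrec.fst.comp Primrec.snd)))
  refine h.of_eq fun p => ?_
  obtain ⟨a, n⟩ := p
  show Nat.rec (motive := fun _ => ℚ) (0 : ℚ) (fun i IH => IH + f a i) n
    = ∑ i ∈ Finset.range n, f a i
  induction n with
  | zero => simp
  | succ n ih => rw [Finset.sum_range_succ, ← ih]

/-- Finite products `∏ i < n, f a i` of a computable family are computable. -/
theorem rat_prod_range {α : Type*} [Primcodable α] {f : α → ℕ → ℚ} (hf : Primrec₂ f) :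
    Primrec₂ (fun a n => ∏ i ∈ Finset.range n, f a i) := by
  have h : Primrec (fun p : α × ℕ =>
      Nat.rec (motive := fun _ => ℚ) (1 : ℚ) (fun i IH => IH * f p.1 i) p.2) :=
    Primrec.nat_rec' (f := fun p : α × ℕ => p.2) (g := fun _ => (1 : ℚ))
      (h := fun (p : α × ℕ) (x : ℕ × ℚ) => x.2 * f p.1 x.1)
      Primrec.snd (Primrec.const 1)
      (c.rat_mul.comp (Primrec.snd.comp Primrec.snd)
        (hf.comp (Primrec.fst.comp Primrec.fst) (Primrec.fst.comp Primrec.snd)))
  refine h.of_eq fun p => ?_
  obtain ⟨a, n⟩ := p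
  show Nat.rec (motive := fun _ => ℚ) (1 : ℚ) (fun i IH => IH * f a i) n
    = ∏ i ∈ Finset.range n, f a i
  induction n with
  | zero => simp
  | succ n ih => rw [Finset.prod_range_succ, ← ih]

/-! ### composition forms -/

section comp
variable {α : Type*} [Primcodable α] {f g : α → ℚ}

theorem add (hf : Primrec f) (hg : Primrec g) : Primrec fun a => f a + g a :=
  c.rat_add.comp hf hg

theorem sub (hf : Primrec f) (hg : Primrec g) : Primrec fun a => f a - g a :=
  c.rat_sub.comp hf hg

theorem mul (hf : Primrec f) (hg : Primrec g) : Primrec fun a => f a * g a :=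
  c.rat_mul.comp hf hg

theorem div (hf : Primrec f) (hg : Primrec g) : Primrec fun a => f a / g a :=
  c.rat_div.comp hf hg

theorem neg (hf : Primrec f) : Primrec fun a => -f a := c.rat_neg.comp hf

theorem inv (hf : Primrec f) : Primrec fun a => (f a)⁻¹ := c.rat_inv.comp hf

theorem abs (hf : Primrec f) : Primrec fun a => |f a| := c.rat_abs.comp hf

theorem max (hf : Primrec f) (hg : Primrec g) : Primrec fun a => max (f a) (g a) :=
  c.rat_max.comp hf hg

theorem min (hf : Primrec f) (hg : Primrec g) : Primrec fun a => min (f a) (g a) :=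
  c.rat_min.comp hf hg

theorem pow {e : α → ℕ} (hf : Primrec f) (he : Primrec e) :
    Primrec fun a => f a ^ e a :=
  c.rat_pow.comp hf he

theorem natCast {e : α → ℕ} (he : Primrec e) : Primrec fun a => (e a : ℚ) :=
  c.rat_natCast.comp he

theorem intCast {e : α → ℤ} (he : Primrec e) : Primrec fun a => (e a : ℚ) :=
  c.rat_intCast.comp he

theorem le (hf : Primrec f) (hg : Primrec g) : Primrec fun a => decide (f a ≤ g a) :=
  c.rat_le.comp hf hg

theorem lt (hf : Primrec f) (hg : Primrec g) : Primrec fun a => decide (f a < g a) :=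
  c.rat_lt.comp hf hg

theorem natCeil (hf : Primrec f) : Primrec fun a => ⌈f a⌉₊ := c.rat_natCeil.comp hf

theorem natFloor (hf : Primrec f) : Primrec fun a => ⌊f a⌋₊ := c.rat_natFloor.comp hf

/-- `if f a ≤ g a then u a else v a` is computable (any computable codomain). -/
theorem ite_le {σ : Type*} [Primcodable σ] {u v : α → σ} (hf : Primrec f) (hg : Primrec g)
    (hu : Primrec u) (hv : Primrec v) :
    Primrec fun a => if f a ≤ g a then u a else v a :=
  (Primrec.cond (c.le hf hg) hu hv).of_eq fun a => by
    by_cases h : f a ≤ g a <;> simp [h]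

/-- `if f a < g a then u a else v a` is computable (any computable codomain). -/
theorem ite_lt {σ : Type*} [Primcodable σ] {u v : α → σ} (hf : Primrec f) (hg : Primrec g)
    (hu : Primrec u) (hv : Primrec v) :
    Primrec fun a => if f a < g a then u a else v a :=
  (Primrec.cond (c.lt hf hg) hu hv).of_eq fun a => by
    by_cases h : f a < g a <;> simp [h]

/-- Sum over `Finset.range (e a)` with computable bound. -/
theorem sum_range {F : α → ℕ → ℚ} {e : α → ℕ} (hF : Primrec₂ F) (he : Primrec e) :
    Primrec fun a => ∑ i ∈ Finset.range (e a), F a i :=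
  (c.rat_sum_range hF).comp Primrec.id he

/-- Product over `Finset.range (e a)` with computable bound. -/
theorem prod_range {F : α → ℕ → ℚ} {e : α → ℕ} (hF : Primrec₂ F) (he : Primrec e) :
    Primrec fun a => ∏ i ∈ Finset.range (e a), F a i :=
  (c.rat_prod_range hF).comp Primrec.id he

/-- Sum of a computable list of rationals. -/
theorem list_sum {l : α → List ℚ} (hl : Primrec l) : Primrec fun a => (l a).sum := by
  have h := Primrec.list_foldl (f := l) (g := fun _ => (0 : ℚ))
    (h := fun (_ : α) (p : ℚ × ℚ) => p.1 + p.2) hl (Primrec.const 0)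
    (c.rat_add.comp (Primrec.fst.comp Primrec.snd) (Primrec.snd.comp Primrec.snd))
  refine h.of_eq fun a => ?_
  rw [List.sum_eq_foldl]

/-- Product of a computable list of rationals. -/
theorem list_prod {l : α → List ℚ} (hl : Primrec l) : Primrec fun a => (l a).prod := by
  have h := Primrec.list_foldl (f := l) (g := fun _ => (1 : ℚ))
    (h := fun (_ : α) (p : ℚ × ℚ) => p.1 * p.2) hl (Primrec.const 1)
    (c.rat_mul.comp (Primrec.fst.comp Primrec.snd) (Primrec.snd.comp Primrec.snd))
  refine h.of_eq fun a => ?_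
  rw [List.prod_eq_foldl]

/-- `∑ b ∈ l a, F a b` for a computable list `l a` and computable `F`. -/
theorem list_map_sum {β : Type*} [Primcodable β] {l : α → List β} {F : α → β → ℚ}
    (hl : Primrec l) (hF : Primrec₂ F) : Primrec fun a => ((l a).map (F a)).sum :=
  c.list_sum (Primrec.list_map hl hF)

end comp

/-! ### vectors `Fin n → ℚ` -/

section vec
variable {α : Type*} [Primcodable α] {n : ℕ} {v w : α → Fin n → ℚ}

theorem vec_add (hv : Primrec v) (hw : Primrec w) : Primrec fun a => v a + w a :=
  primrec_fin_lam fun i => c.add (primrec_fin_apply hv i) (primrec_fin_apply hw i)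

theorem vec_sub (hv : Primrec v) (hw : Primrec w) : Primrec fun a => v a - w a :=
  primrec_fin_lam fun i => c.sub (primrec_fin_apply hv i) (primrec_fin_apply hw i)

theorem vec_neg (hv : Primrec v) : Primrec fun a => -v a :=
  primrec_fin_lam fun i => c.neg (primrec_fin_apply hv i)

theorem vec_smul {s : α → ℚ} (hs : Primrec s) (hv : Primrec v) :
    Primrec fun a => s a • v a :=
  primrec_fin_lam fun i => c.mul hs (primrec_fin_apply hv i)

/-- Finite sum over `Fin m` of computable rational functions. -/
theorem fin_sum {m : ℕ} {F : Fin m → α → ℚ} (hF : ∀ i, Primrec (F i)) :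
    Primrec fun a => ∑ i, F i a := by
  induction m with
  | zero => simpa using Primrec.const (0 : ℚ)
  | succ m ih =>
    simp only [Fin.sum_univ_castSucc]
    exact c.add (ih fun i => hF i.castSucc) (hF (Fin.last m))

/-- Finite product over `Fin m` of computable rational functions. -/
theorem fin_prod {m : ℕ} {F : Fin m → α → ℚ} (hF : ∀ i, Primrec (F i)) :
    Primrec fun a => ∏ i, F i a := by
  induction m with
  | zero => simpa using Primrec.const (1 : ℚ)
  | succ m ih =>
    simp only [Fin.prod_univ_castSucc]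
    exact c.mul (ih fun i => hF i.castSucc) (hF (Fin.last m))

/-- Binary addition on `Fin n → ℚ`. -/
theorem rat_vec_add : Primrec₂ (fun x y : Fin n → ℚ => x + y) :=
  c.vec_add Primrec.fst Primrec.snd

end vec

/-- A primitive recursive core is in particular a computable core. -/
theorem toC : RatCoreC := ⟨c.num.to_comp, c.den.to_comp, c.frac.to_comp⟩

theorem rat_leRel : PrimrecRel (fun a b : ℚ => a ≤ b) := Primrec₂.primrecRel c.rat_le

theorem rat_ltRel : PrimrecRel (fun a b : ℚ => a < b) := Primrec₂.primrecRel c.rat_lt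

end RatCoreP

end Crest.Agent.Helper77
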